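import Vale.Agent.Lib.P040.TwoPageAbs

/-!
The abstract lemma of the middle part (helper19). Words `x y : ℕ → Bool` on positions `0..n`.
-/

namespace Vale.Agent.Lib.P040K

open Finset

/-- Ones of `x` after `i`, up to `n`. -/
def bc (n : ℕ) (x : ℕ → Bool) (i : ℕ) : ℕ := ((Ioc i n).filter fun v => x v = true).card

/-- Ones of `y` before `i`. -/
def ac (y : ℕ → Bool) (i : ℕ) : ℕ := ((range i).filter fun u => y u = true).card

/-- Label of position `i` from `x`: ones from below, zeros from above, reading from the right. -/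
def sx (n : ℕ) (x : ℕ → Bool) (i : ℕ) : ℕ := if x i = true then bc n x i else bc n x i + i

/-- Label of position `i` from `y`: ones from below, zeros from above, reading from the left. -/
def sy (n : ℕ) (y : ℕ → Bool) (i : ℕ) : ℕ := if y i = true then ac y i else ac y i + (n - i)

/-- The error term. -/
def xiV (V : ℕ → ℤ) (n : ℕ) (x y : ℕ → Bool) (i : ℕ) : ℤ :=
  V (sy n y i) - V (sx n x i) + (if y i = true then (bc n x i : ℤ) else (bc n x i : ℤ) - ((n : ℤ) - i))

/-- Pairs `u < v ≤ n` with `y u = x v`, grouped by `v`. -/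
def TT (n : ℕ) (x y : ℕ → Bool) : ℤ :=
  ∑ v ∈ range (n + 1), if x v = true then (ac y v : ℤ) else (v : ℤ) - ac y v

theorem ac_eq (y : ℕ → Bool) (i : ℕ) : ac y i = Vale.Agent.Lib.P040.Abs.cnt y i := by
  induction i with
  | zero => simp [ac, Vale.Agent.Lib.P040.Abs.cnt]
  | succ i ih =>
    simp only [Vale.Agent.Lib.P040.Abs.cnt]
    rw [← ih]
    unfold ac
    rw [Finset.range_add_one, Finset.filter_insert]
    by_cases hy : y i = true
    · rw [if_pos hy, if_pos hy, Finset.card_insert_of_notMem (by simp)]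
    · rw [if_neg hy, if_neg hy]
      simp

theorem after_eq_card (x : ℕ → Bool) (m i : ℕ) :
    Vale.Agent.Lib.P040.Abs.after x m i = ((Ioo i m).filter fun v => x v = true).card := by
  induction m with
  | zero =>
    simp [Vale.Agent.Lib.P040.Abs.after]
  | succ m ih =>
    simp only [Vale.Agent.Lib.P040.Abs.after]
    rw [ih]
    by_cases him : i < m
    · have h1 : Ioo i (m + 1) = insert m (Ioo i m) := by
        ext v
        simp only [mem_Ioo, mem_insert]
        omega
      rw [h1, Finset.filter_insert]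
      by_cases hx : x m = true
      · rw [if_pos ⟨him, hx⟩, if_pos hx, Finset.card_insert_of_notMem (by simp)]
      · rw [if_neg (fun h => hx h.2), if_neg hx]
        simp
    · have h1 : Ioo i (m + 1) = Ioo i m := by
        ext v
        simp only [mem_Ioo]
        omega
      rw [h1, if_neg (fun h => him h.1)]
      simp

theorem bc_eq (n : ℕ) (x : ℕ → Bool) (i : ℕ) : bc n x i = Vale.Agent.Lib.P040.Abs.after x (n + 1) i := by
  rw [after_eq_card]
  unfold bc
  have h1 : Ioc i n = Ioo i (n + 1) := by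
    ext v
    simp only [mem_Ioc, mem_Ioo]
    omega
  rw [h1]

theorem sx_eq (n : ℕ) (x : ℕ → Bool) (i : ℕ) : sx n x i = Vale.Agent.Lib.P040.Abs.lab x (n + 1) i := by
  unfold sx Vale.Agent.Lib.P040.Abs.lab
  rw [bc_eq]

theorem sy_eq (n : ℕ) (y : ℕ → Bool) (i : ℕ) : sy n y i = Vale.Agent.Lib.P040.Abs.lab' y (n + 1) i := by
  unfold sy Vale.Agent.Lib.P040.Abs.lab'
  rw [ac_eq]
  simp

theorem xiV_eq (V : ℕ → ℤ) (n : ℕ) (x y : ℕ → Bool) (i : ℕ) :
    Vale.Agent.Lib.P040.Abs.xi x y V (n + 1) i = xiV V n x y i := by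
  unfold xiV Vale.Agent.Lib.P040.Abs.xi
  rw [sx_eq, sy_eq, bc_eq]
  by_cases hy : y i = true
  · simp only [if_pos hy]
  · simp only [if_neg hy]
    push_cast
    ring

theorem T_eq_TT (n : ℕ) (x y : ℕ → Bool) : Vale.Agent.Lib.P040.Abs.T x y (n + 1) = TT n x y := by
  unfold TT
  induction n with
  | zero =>
    simp [Vale.Agent.Lib.P040.Abs.T, ac_eq]
  | succ n ih =>
    rw [Finset.sum_range_succ, ← ih]
    rw [Vale.Agent.Lib.P040.Abs.T, ac_eq]

/-- Abstract lemma: for any nondecreasing 1-Lipschitz `V`, the errors sum to at most `TT`. Paper proof, induction on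
`n` peeling position `n`, `σ s = V (s+1) - V s`:
if `x n`: smaller instance with `W = V (· + 1)`: `y i = false`: same error; `y i = true`:
error `= xi^W + 1 - σ (ac y i)`; last position `xi = V (ac y n) - V 0`; total extra `= ac y n` = new pairs.
If not `x n`: smaller instance with `V`: `y i = true`: same; `y i = false`: `xi = xi^- - (1 - σ (n-1-(i - ac y i)))`;
last position `xi = V (ac y n) - V n`; total extra `= n - ac y n` = new pairs. -/
theorem abs_lemma (n : ℕ) (V : ℕ → ℤ) (x y : ℕ → Bool)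
    (hV : ∀ s, V s ≤ V (s + 1) ∧ V (s + 1) ≤ V s + 1) :
    ∑ i ∈ range (n + 1), |xiV V n x y i| ≤ TT n x y := by
  have h := Vale.Agent.Lib.P040.Abs.abs_lemma x y (n + 1) V (fun s => (hV s).1) (fun s => (hV s).2)
  rw [← T_eq_TT n x y]
  refine le_trans (le_of_eq ?_) h
  exact Finset.sum_congr rfl fun i _ => by rw [xiV_eq]

/-- `sx n x` is a bijection of `0..n`. Same peeling: `x n`: `sx n = 0`, others shift by one; else `sx n = n`. -/
theorem sum_sx (n : ℕ) (x : ℕ → Bool) (f : ℕ → ℤ) :
    ∑ i ∈ range (n + 1), f (sx n x i) = ∑ s ∈ range (n + 1), f s := by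
  have h := Vale.Agent.Lib.P040.Abs.sum_lab x (n + 1) f
  rw [← h]
  exact Finset.sum_congr rfl fun i _ => by rw [sx_eq]

end Vale.Agent.Lib.P040K
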