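import Vale.Agent.Lib.P040K.Defs

/-!
The arithmetic closing the key inequality.
`α = h - k - 1`, `β = k - g`, `n = α + β = h - g - 1`, `A = a1 + b1 - k`, `a0 = k - α - a1`, `b0 = k - β - b1`.
Pointwise (omega): `|DD s| = |A + s| - (β-a1-s)^+ - (α-b1-s)^+ - (a1+s-k)^+ - (b1+s-k)^+ + 2 (n-k-s)^+ + 2 (s-k)^+`.
Sums by `sum_max_sub`, `sum_max_add`. After the cancellation of `band` with these sums and `two_tri_add_neg`, a polynomial
identity (`ring`) leaves: `tri (a1-k-1) + tri (-a1-α-1) + tri (b1-k-1) + tri (-b1-β-1) ≤ tri (A-1) + tri (-A-n-1)`.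
If `α, β ≥ 0` the left side is 0. If `α < 0`: `b` terms vanish; `a1-k-1 > 0` gives `A-1 ≥ a1-k-1`; `-a1-α-1 > 0` gives
`-A-n-1 ≥ -a1-α-1`. `β < 0` symmetric.
-/

namespace Vale.Agent.Lib.P040K

open Finset

/-- Pointwise formula. -/
theorem dd_point (k g h : ℕ) (hgh : g + 1 ≤ h) (hh : h ≤ 2 * k + 1) (a1 b1 : ℤ) (ha1 : 0 ≤ a1)
    (ha1' : a1 ≤ 2 * k + 1 - h) (hb1 : 0 ≤ b1) (hb1' : b1 ≤ g) (s : ℕ) (hs : s + g + 1 ≤ h) :
    |DD k g h a1 b1 s| = |a1 + b1 - k + s| - max ((k : ℤ) - g - a1 - s) 0 - max ((h : ℤ) - k - 1 - b1 - s) 0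
      - max (a1 + s - k) 0 - max (b1 + s - k) 0 + 2 * max ((h : ℤ) - g - 1 - k - s) 0 + 2 * max ((s : ℤ) - k) 0 := by
  unfold DD clampI
  simp only [abs_eq_max_neg]
  omega

/-- The inequality on triangular numbers left after the polynomial identity. -/
theorem tri_close (k g h : ℕ) (hgh : g ≤ h) (hh : h ≤ 2 * k + 1) (a1 b1 : ℤ) (ha1 : 0 ≤ a1)
    (ha1' : a1 ≤ 2 * k + 1 - h) (hb1 : 0 ≤ b1) (hb1' : b1 ≤ g) :
    tri (a1 - k - 1) + tri (-a1 - ((h : ℤ) - k - 1) - 1) + tri (b1 - k - 1) + tri (-b1 - ((k : ℤ) - g) - 1)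
      ≤ tri (a1 + b1 - k - 1) + tri (-(a1 + b1 - k) - ((h : ℤ) - g - 1) - 1) := by
  have hR1 := tri_nonneg (a1 + b1 - k - 1)
  have hR2 := tri_nonneg (-(a1 + b1 - k) - ((h : ℤ) - g - 1) - 1)
  by_cases hα : h ≤ k
  · -- `α < 0`
    have e1 : tri (b1 - k - 1) = 0 := tri_of_nonpos (by omega)
    have e2 : tri (-b1 - ((k : ℤ) - g) - 1) = 0 := tri_of_nonpos (by omega)
    have e3 : tri (a1 - k - 1) ≤ tri (a1 + b1 - k - 1) := tri_mono (by omega)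
    have e4 : tri (-a1 - ((h : ℤ) - k - 1) - 1) ≤ tri (-(a1 + b1 - k) - ((h : ℤ) - g - 1) - 1) :=
      tri_mono (by omega)
    linarith
  · by_cases hβ : k < g
    · have e1 : tri (a1 - k - 1) = 0 := tri_of_nonpos (by omega)
      have e2 : tri (-a1 - ((h : ℤ) - k - 1) - 1) = 0 := tri_of_nonpos (by omega)
      have e3 : tri (b1 - k - 1) ≤ tri (a1 + b1 - k - 1) := tri_mono (by omega)
      have e4 : tri (-b1 - ((k : ℤ) - g) - 1) ≤ tri (-(a1 + b1 - k) - ((h : ℤ) - g - 1) - 1) :=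
        tri_mono (by omega)
      linarith
    · have e1 : tri (a1 - k - 1) = 0 := tri_of_nonpos (by omega)
      have e2 : tri (-a1 - ((h : ℤ) - k - 1) - 1) = 0 := tri_of_nonpos (by omega)
      have e3 : tri (b1 - k - 1) = 0 := tri_of_nonpos (by omega)
      have e4 : tri (-b1 - ((k : ℤ) - g) - 1) = 0 := tri_of_nonpos (by omega)
      linarith

/-- The arithmetic closing the bound (`L2`). -/
theorem arith_close (k g h : ℕ) (hgh : g ≤ h) (hh : h ≤ 2 * k + 1) (a1 b1 : ℤ) (ha1 : 0 ≤ a1)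
    (ha1' : a1 ≤ 2 * k + 1 - h) (hb1 : 0 ≤ b1) (hb1' : b1 ≤ g) :
    ∑ s ∈ range (h - g), |DD k g h a1 b1 s| - 2 * tri ((h : ℤ) - g - 1 - k)
      + band a1 ((2 * k + 1 - h : ℤ) - a1) ((k : ℤ) - g) k + band b1 ((g : ℤ) - b1) ((h : ℤ) - k - 1) k
      ≤ a1 * b1 + ((2 * k + 1 - h : ℤ) - a1) * ((g : ℤ) - b1) := by
  have hNz : ((h - g : ℕ) : ℤ) = (h : ℤ) - g := by omega
  have hsumform : ∀ s ∈ range (h - g), |DD k g h a1 b1 s| =
      max ((a1 + b1 - k) + (s:ℤ)) 0 + max (-(a1 + b1 - k) - (s:ℤ)) 0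
      - max (((k:ℤ) - g - a1) - (s:ℤ)) 0 - max (((h:ℤ) - k - 1 - b1) - (s:ℤ)) 0
      - max ((a1 - k) + (s:ℤ)) 0 - max ((b1 - k) + (s:ℤ)) 0
      + 2 * max (((h:ℤ) - g - 1 - k) - (s:ℤ)) 0 + 2 * max ((-(k:ℤ)) + (s:ℤ)) 0 := by
    intro s hs
    have hs' : s + g + 1 ≤ h := by
      have := mem_range.1 hs
      omega
    rw [dd_point k g h (by omega) hh a1 b1 ha1 ha1' hb1 hb1' s hs']
    simp only [abs_eq_max_neg]
    omega
  rw [sum_congr rfl hsumform]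
  simp only [sum_add_distrib, sum_sub_distrib, ← mul_sum, sum_max_add, sum_max_sub, hNz]
  unfold band NN
  -- canonical arguments
  obtain ⟨K, hK⟩ : ∃ K : ℤ, K = (k : ℤ) := ⟨_, rfl⟩
  obtain ⟨G, hG⟩ : ∃ G : ℤ, G = (g : ℤ) := ⟨_, rfl⟩
  obtain ⟨H, hH⟩ : ∃ H : ℤ, H = (h : ℤ) := ⟨_, rfl⟩
  have hclose := tri_close k g h hgh hh a1 b1 ha1 ha1' hb1 hb1'
  have f0 := two_tri_add_neg (k : ℤ)
  have f1 := two_tri_add_neg ((a1 + b1 - k) + ((h : ℤ) - g - 1))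
  have f2 := two_tri_add_neg (a1 + b1 - k - 1)
  have f3 := two_tri_add_neg ((k : ℤ) - a1)
  have f4 := two_tri_add_neg (a1 + ((h : ℤ) - k - 1))
  have f5 := two_tri_add_neg ((k : ℤ) - b1)
  have f6 := two_tri_add_neg (b1 + ((k : ℤ) - g))
  have t0 : tri (-(k : ℤ) - 1) = 0 := tri_of_nonpos (by omega)
  rw [← hK, ← hG, ← hH] at *
  ring_nf at *
  nlinarith

end Vale.Agent.Lib.P040K
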