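import Mathlib

/-!
Triangular numbers on the integers, the only special function of the key inequality.
-/

namespace Vale.Agent.Lib.P040K

open Finset

/-- `x (x+1) / 2` for `x ≥ 0`, and `0` for `x < 0`. -/
def tri (x : ℤ) : ℤ := if 0 ≤ x then x * (x + 1) / 2 else 0

theorem two_tri {x : ℤ} (h : 0 ≤ x) : 2 * tri x = x * (x + 1) := by
  unfold tri
  rw [if_pos h]
  have h2 : (2:ℤ) ∣ x * (x + 1) := (Int.even_mul_succ_self x).two_dvd
  exact Int.mul_ediv_cancel' h2

theorem tri_of_nonpos {x : ℤ} (h : x ≤ 0) : tri x = 0 := by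
  rcases lt_or_eq_of_le h with h1 | h1
  · unfold tri
    rw [if_neg (not_le.2 h1)]
  · subst h1
    simp [tri]

theorem tri_nonneg (x : ℤ) : 0 ≤ tri x := by
  by_cases h : 0 ≤ x
  · have := two_tri h
    have h3 : 0 ≤ x * (x + 1) := mul_nonneg h (by linarith)
    linarith
  · rw [tri_of_nonpos (le_of_lt (not_le.1 h))]

theorem tri_sub_one (x : ℤ) : tri x - tri (x - 1) = max x 0 := by
  by_cases h : 0 < x
  · have h1 := two_tri (x := x) h.le
    have h2 := two_tri (x := x - 1) (by omega)
    rw [max_eq_left h.le]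
    nlinarith
  · have h' : x ≤ 0 := not_lt.1 h
    rw [tri_of_nonpos h', tri_of_nonpos (by omega), max_eq_right h']
    simp

theorem tri_mono {x y : ℤ} (h : x ≤ y) : tri x ≤ tri y := by
  by_cases hx : 0 < x
  · have h1 := two_tri (x := x) hx.le
    have h2 := two_tri (x := y) (by omega)
    nlinarith
  · rw [tri_of_nonpos (not_lt.1 hx)]
    exact tri_nonneg y

theorem two_tri_add_neg (x : ℤ) : 2 * (tri x + tri (-x - 1)) = x * (x + 1) := by
  by_cases h : 0 ≤ x
  · have h1 := two_tri h
    rw [tri_of_nonpos (x := -x - 1) (by omega)]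
    linarith
  · have hx : x ≤ 0 := by omega
    have h2 := two_tri (x := -x - 1) (by omega)
    rw [tri_of_nonpos hx]
    nlinarith

/-- Number of cells `(i, j)`, `i < t`, `j < z`, `i + j < c`, in closed form. -/
def NN (t z c : ℤ) : ℤ := tri c - tri (c - t) - tri (c - z) + tri (c - t - z)

theorem sum_max_sub (c : ℤ) (n : ℕ) :
    ∑ s ∈ range n, max (c - (s : ℤ)) 0 = tri c - tri (c - n) := by
  induction n with
  | zero => simp
  | succ n ih =>
    rw [Finset.sum_range_succ, ih]
    have h := tri_sub_one (c - n)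
    have e : c - ((n + 1 : ℕ) : ℤ) = c - n - 1 := by push_cast; ring
    rw [e]
    linarith

theorem sum_max_add (c : ℤ) (n : ℕ) :
    ∑ s ∈ range n, max (c + (s : ℤ)) 0 = tri (c + n - 1) - tri (c - 1) := by
  induction n with
  | zero => simp
  | succ n ih =>
    rw [Finset.sum_range_succ, ih]
    have h := tri_sub_one (c + n)
    have e : c + ((n + 1 : ℕ) : ℤ) - 1 = c + n := by push_cast; ring
    rw [e]
    linarith

end Vale.Agent.Lib.P040K
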