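import Vale.Agent.Lib.P040.TwoPageGen
import Vale.Agent.Lib.P040K.Tri

/-!
Notation for the key inequality: counts on the two ends, clamps, the function `DD`.
-/

namespace Vale.Agent.Lib.P040K

open Finset Vale.Agent.Lib.P040.Gen

/-- Ones of the sign word `a` on `[m, 2k]`. -/
def onesR (k : ℕ) (a : ℕ → ℤ) (m : ℕ) : ℤ :=
  ∑ i ∈ Ico m (2 * k + 1), if a i = 1 then 1 else 0

/-- Ones of the sign word `a` on `[0, m)`. -/
def onesL (a : ℕ → ℤ) (m : ℕ) : ℤ :=
  ∑ i ∈ range m, if a i = 1 then 1 else 0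

/-- Clamp `x` to `[lo, hi]`. -/
def clampI (x lo hi : ℤ) : ℤ := max lo (min hi x)

/-- The function of the middle part: `a1`, `b1` ones of `a` on `[h, 2k]`, of `b` on `[0, g)`. -/
def DD (k g h : ℕ) (a1 b1 : ℤ) (s : ℕ) : ℤ :=
  clampI (a1 + s) ((k : ℤ) - g) k + clampI (b1 + s) ((h : ℤ) - k - 1) k - s - k

/-- Cells `(i, j)`, `i < t`, `j < z`, `c ≤ i + j < k`. -/
def band (t z c k : ℤ) : ℤ := NN t z k - NN t z c

end Vale.Agent.Lib.P040K
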