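import Vale.Agent.Lib.P040K.MForm
import Vale.Agent.Lib.P040K.Abs

/-!
The middle part: the two stars read opposite ends. Positions `i = 0..n`, `l = g + i`, `h = g + n + 1`,
`x i := a (g + i) = 1`, `y i := b (g + i) = 1`, `j = n - i`, `a1 = onesR k a h`, `b1 = onesL b g`.
`V s = clampI (a1 + s) (k - g) k`, `W s = clampI (b1 + s) (h - k - 1) k`.
By `MForm`: `certC a l = 2 (V (sx i) - (x? 0 : i) - xhat i * (i-k)^+) - (2k - l)`,
`certC b l = 2 (W (sy i) - (y? 0 : j) - yhat i * (j-k)^+) - l`, so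
`(certC a l + certC b l)/2 = Gu i - xhat i (i-k)^+ - yhat i (j-k)^+`, `Gu i = V (sx i) - (x? 0 : i) + W (sy i) - (y? 0 : j) - k`.
If `i > k` then `certC a l = xhat i * wd k l` and `|certC b l| ≤ wd k l`, so the sign of the half sum is `xhat i`;
if `j > k` the same with `yhat i`; `i > k`, `j > k` exclude each other as `n ≤ 2k`. Hence
`|certC a l + certC b l| = 2 |Gu i| - 2 (i-k)^+ - 2 (j-k)^+`.
`Gu i = DD (sx i) + xiV W n x y i` by algebra. So with `abs_lemma` for `W` and `sum_sx`: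
-/

namespace Vale.Agent.Lib.P040K

open Finset Vale.Agent.Lib.P040.Gen

namespace MidAux

lemma sign_eq (s : ℤ) (h : s = 1 ∨ s = -1) : s = 2 * (if s = 1 then (1:ℤ) else 0) - 1 := by
  rcases h with rfl | rfl <;> simp

lemma sumR_eq (k : ℕ) (a : ℕ → ℤ) (ha : ∀ i, a i = 1 ∨ a i = -1) {l : ℕ} (hl : l ≤ 2 * k) :
    sumR k a l = 2 * onesR k a (l + 1) - (2 * (k : ℤ) - l) := by
  unfold sumR onesR
  have h1 : Ioc l (2 * k) = Ico (l + 1) (2 * k + 1) := by
    ext u; simp only [mem_Ioc, mem_Ico]; omega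
  rw [h1]
  have h2 : ∑ i ∈ Ico (l + 1) (2 * k + 1), a i
      = ∑ i ∈ Ico (l + 1) (2 * k + 1), (2 * (if a i = 1 then (1:ℤ) else 0) - 1) :=
    Finset.sum_congr rfl (fun i _ => sign_eq _ (ha i))
  rw [h2, Finset.sum_sub_distrib, ← Finset.mul_sum]
  simp only [Finset.sum_const, Nat.card_Ico, nsmul_eq_mul, mul_one]
  have : ((2 * k + 1 - (l + 1) : ℕ) : ℤ) = 2 * (k : ℤ) - l := by omega
  rw [this]

lemma sumL_eq (b : ℕ → ℤ) (hb : ∀ i, b i = 1 ∨ b i = -1) (l : ℕ) :
    sumL b l = 2 * onesL b l - l := by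
  unfold sumL onesL
  have h2 : ∑ i ∈ range l, b i = ∑ i ∈ range l, (2 * (if b i = 1 then (1:ℤ) else 0) - 1) :=
    Finset.sum_congr rfl (fun i _ => sign_eq _ (hb i))
  rw [h2, Finset.sum_sub_distrib, ← Finset.mul_sum]
  simp

lemma bc_eq (a : ℕ → ℤ) (g n i : ℕ) :
    ((bc n (fun v => decide (a (g + v) = 1)) i : ℕ) : ℤ)
      = ∑ u ∈ Ico (g + i + 1) (g + n + 1), if a u = 1 then (1:ℤ) else 0 := by
  unfold bc
  rw [Finset.card_filter]
  push_cast
  refine Finset.sum_nbij' (fun v => g + v) (fun u => u - g) ?_ ?_ ?_ ?_ ?_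
  · intro v hv; simp only [mem_Ioc] at hv; simp only [mem_Ico]; omega
  · intro u hu; simp only [mem_Ico] at hu; simp only [mem_Ioc]; omega
  · intro v _; simp
  · intro u hu; simp only [mem_Ico] at hu; show g + (u - g) = u; omega
  · intro v _; simp

lemma ac_eq (b : ℕ → ℤ) (g i : ℕ) :
    ((ac (fun v => decide (b (g + v) = 1)) i : ℕ) : ℤ)
      = ∑ u ∈ Ico g (g + i), if b u = 1 then (1:ℤ) else 0 := by
  unfold ac
  rw [Finset.card_filter]
  push_cast
  refine Finset.sum_nbij' (fun v => g + v) (fun u => u - g) ?_ ?_ ?_ ?_ ?_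
  · intro v hv; simp only [mem_range] at hv; simp only [mem_Ico]; omega
  · intro u hu; simp only [mem_Ico] at hu; simp only [mem_range]; omega
  · intro v _; simp
  · intro u hu; simp only [mem_Ico] at hu; show g + (u - g) = u; omega
  · intro v _; simp

lemma onesR_split (k g n i : ℕ) (a : ℕ → ℤ) (hi : i ≤ n) (hh : g + n + 1 ≤ 2 * k + 1) :
    onesR k a (g + i + 1)
      = onesR k a (g + n + 1) + ((bc n (fun v => decide (a (g + v) = 1)) i : ℕ) : ℤ) := by
  rw [bc_eq]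
  unfold onesR
  have := Finset.sum_Ico_consecutive (fun i => if a i = 1 then (1:ℤ) else 0)
    (show g + i + 1 ≤ g + n + 1 by omega) hh
  linarith

lemma onesL_split (g i : ℕ) (b : ℕ → ℤ) :
    onesL b (g + i) = onesL b g + ((ac (fun v => decide (b (g + v) = 1)) i : ℕ) : ℤ) := by
  rw [ac_eq]
  unfold onesL
  rw [Finset.range_eq_Ico, Finset.range_eq_Ico, Finset.sum_Ico_consecutive _ (by omega) (by omega)]

lemma onesR_bounds' (k m : ℕ) (hm : m ≤ 2 * k + 1) (a : ℕ → ℤ) :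
    0 ≤ onesR k a m ∧ onesR k a m ≤ 2 * (k : ℤ) + 1 - m := by
  unfold onesR
  constructor
  · exact Finset.sum_nonneg (fun i _ => by split_ifs <;> norm_num)
  · calc _ ≤ ∑ _i ∈ Ico m (2 * k + 1), (1:ℤ) :=
          Finset.sum_le_sum (fun i _ => by split_ifs <;> norm_num)
      _ = _ := by
          simp only [Finset.sum_const, Nat.card_Ico, nsmul_eq_mul, mul_one]
          omega

lemma onesL_bounds' (m : ℕ) (a : ℕ → ℤ) : 0 ≤ onesL a m ∧ onesL a m ≤ m := by
  unfold onesL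
  constructor
  · exact Finset.sum_nonneg (fun i _ => by split_ifs <;> norm_num)
  · calc _ ≤ ∑ _i ∈ range m, (1:ℤ) :=
          Finset.sum_le_sum (fun i _ => by split_ifs <;> norm_num)
      _ = _ := by simp

/-- The right star in a middle group. -/
lemma certC_a_form (k g n i : ℕ) (hh : g + n + 1 ≤ 2 * k + 1) (hi : i ≤ n) (a : ℕ → ℤ)
    (ha : ∀ i, a i = 1 ∨ a i = -1) :
    certC k g a (g + i)
      = 2 * (clampI (onesR k a (g + n + 1) + ((sx n (fun v => decide (a (g + v) = 1)) i : ℕ) : ℤ))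
            ((k : ℤ) - g) k
          - (if a (g + i) = 1 then 0 else (i : ℤ)) - a (g + i) * max ((i : ℤ) - k) 0)
        - (2 * (k : ℤ) - ((g : ℤ) + i)) := by
  have hl : g + i ≤ 2 * k := by omega
  have hS := sumR_eq k a ha hl
  have hsplit := onesR_split k g n i a hi hh
  obtain ⟨hb0, hb1⟩ := onesR_bounds' k (g + i + 1) (by omega) a
  set t : ℤ := onesR k a (g + i + 1) with ht
  have hw : wd k (g + i) = min ((g : ℤ) + i) (2 * (k : ℤ) - ((g : ℤ) + i)) := by
    unfold wd; push_cast; rfl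
  set w : ℤ := wd k (g + i) with hwd
  have hgl : ((g + i : ℕ) : ℤ) = (g : ℤ) + i := by push_cast; rfl
  have ht0 : 0 ≤ t := hb0
  have hz0 : 0 ≤ 2 * (k : ℤ) - ((g : ℤ) + i) - t := by
    push_cast at hb1
    linarith
  have htz : t + (2 * (k : ℤ) - ((g : ℤ) + i) - t) = 2 * (k : ℤ) - ((g : ℤ) + i) := by ring
  have hSS : sumR k a (g + i) = t - (2 * (k : ℤ) - ((g : ℤ) + i) - t) := by
    rw [hS, hgl]; ring
  unfold certC
  rw [if_pos (Nat.le_add_right g i), ← hwd, hSS, hgl]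
  rcases ha (g + i) with h1 | h1
  · have hx : (fun v => decide (a (g + v) = 1)) i = true := by simp [h1]
    have h2 := x_form_one (k := (k : ℤ)) (g := (g : ℤ)) (i := (i : ℤ)) (t := t)
      (z := 2 * (k : ℤ) - ((g : ℤ) + i) - t) (by positivity) (by positivity) (by positivity) ht0 hz0 htz w hw
    have hsx : ((sx n (fun v => decide (a (g + v) = 1)) i : ℕ) : ℤ)
        = ((bc n (fun v => decide (a (g + v) = 1)) i : ℕ) : ℤ) := by
      unfold sx; rw [if_pos hx]
    rw [h1, hsx, ← hsplit]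
    simp only [one_mul, if_true]
    rw [h2]
    ring
  · have hx : ¬ ((fun v => decide (a (g + v) = 1)) i = true) := by simp [h1]
    have h2 := x_form_zero (k := (k : ℤ)) (g := (g : ℤ)) (i := (i : ℤ)) (t := t)
      (z := 2 * (k : ℤ) - ((g : ℤ) + i) - t) (by positivity) (by positivity) (by positivity) ht0 hz0 htz w hw
    have hsx : ((sx n (fun v => decide (a (g + v) = 1)) i : ℕ) : ℤ)
        = ((bc n (fun v => decide (a (g + v) = 1)) i : ℕ) : ℤ) + i := by
      unfold sx; rw [if_neg hx]; push_cast; rfl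
    have h3 : (-1 : ℤ) ≠ 1 := by norm_num
    rw [h1, hsx, if_neg h3, ← add_assoc, ← hsplit]
    have h4 : ∀ A B : ℤ, (-1 : ℤ) * max ((-1) * A) B = min A (-B) := by
      intro A B; omega
    rw [h4, h2]
    ring

/-- The left star in a middle group, `j = n - i`. -/
lemma certC_b_form (k g n i : ℕ) (hh : g + n + 1 ≤ 2 * k + 1) (hi : i ≤ n) (b : ℕ → ℤ)
    (hb : ∀ i, b i = 1 ∨ b i = -1) :
    certC k (g + n + 1) b (g + i)
      = 2 * (clampI (onesL b g + ((sy n (fun v => decide (b (g + v) = 1)) i : ℕ) : ℤ))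
            (((g + n + 1 : ℕ) : ℤ) - k - 1) k
          - (if b (g + i) = 1 then 0 else ((n : ℤ) - i)) - b (g + i) * max ((n : ℤ) - i - k) 0)
        - ((g : ℤ) + i) := by
  have hS := sumL_eq b hb (g + i)
  have hsplit := onesL_split g i b
  obtain ⟨hb0, hb1⟩ := onesL_bounds' (g + i) b
  set t : ℤ := onesL b (g + i) with ht
  have hgl : ((g + i : ℕ) : ℤ) = (g : ℤ) + i := by push_cast; rfl
  have hh1 : ((g + n + 1 : ℕ) : ℤ) = (g : ℤ) + n + 1 := by push_cast; rfl
  have hj : ((g : ℤ) + n + 1) - 1 - ((n : ℤ) - i) = (g : ℤ) + i := by ring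
  have hw : wd k (g + i) = min (((g : ℤ) + n + 1) - 1 - ((n : ℤ) - i))
      (2 * (k : ℤ) - (((g : ℤ) + n + 1) - 1 - ((n : ℤ) - i))) := by
    rw [hj]; unfold wd; push_cast; rfl
  set w : ℤ := wd k (g + i) with hwd
  have ht0 : 0 ≤ t := hb0
  have hz0 : 0 ≤ ((g : ℤ) + i) - t := by
    rw [hgl] at hb1
    linarith
  have htz : t + (((g : ℤ) + i) - t) = ((g : ℤ) + n + 1) - 1 - ((n : ℤ) - i) := by
    rw [hj]; ring
  have hSS : sumL b (g + i) = t - (((g : ℤ) + i) - t) := by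
    rw [hS, hgl]; ring
  have hjn : (0 : ℤ) ≤ (n : ℤ) - i := by omega
  have hhk : (g : ℤ) + n + 1 ≤ 2 * (k : ℤ) + 1 := by omega
  unfold certC
  rw [if_neg (by omega), ← hwd, hSS, hgl, hh1]
  have hsub : 2 * ((g : ℤ) + n + 1) - 2 - 2 * (k : ℤ) - ((g : ℤ) + i)
      = 2 * ((g : ℤ) + n + 1) - 2 - 2 * (k : ℤ) - (((g : ℤ) + n + 1) - 1 - ((n : ℤ) - i)) := by
    rw [hj]
  rcases hb (g + i) with h1 | h1
  · have hy : (fun v => decide (b (g + v) = 1)) i = true := by simp [h1]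
    have h2 := y_form_one (k := (k : ℤ)) (h := (g : ℤ) + n + 1) (j := (n : ℤ) - i) (t := t)
      (z := ((g : ℤ) + i) - t) (by positivity) hjn ht0 hz0 hhk htz w hw
    have hsy : ((sy n (fun v => decide (b (g + v) = 1)) i : ℕ) : ℤ)
        = ((ac (fun v => decide (b (g + v) = 1)) i : ℕ) : ℤ) := by
      unfold sy; rw [if_pos hy]
    rw [h1, hsy, ← hsplit]
    simp only [one_mul, if_true]
    rw [hsub, h2, hj]
    ring
  · have hy : ¬ ((fun v => decide (b (g + v) = 1)) i = true) := by simp [h1]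
    have h2 := y_form_zero (k := (k : ℤ)) (h := (g : ℤ) + n + 1) (j := (n : ℤ) - i) (t := t)
      (z := ((g : ℤ) + i) - t) (by positivity) hjn ht0 hz0 hhk htz w hw
    have hsy : ((sy n (fun v => decide (b (g + v) = 1)) i : ℕ) : ℤ)
        = ((ac (fun v => decide (b (g + v) = 1)) i : ℕ) : ℤ) + ((n : ℤ) - i) := by
      unfold sy; rw [if_neg hy]; push_cast; omega
    have h3 : (-1 : ℤ) ≠ 1 := by norm_num
    rw [h1, hsy, if_neg h3, ← add_assoc, ← hsplit]
    have h4 : ∀ A B : ℤ, (-1 : ℤ) * max ((-1) * A) B = min A (-B) := by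
      intro A B; omega
    rw [h4, hsub, h2, hj]
    ring

lemma clampZ_le {w x : ℤ} (hw : 0 ≤ w) : clampZ w x ≤ w := by unfold clampZ; omega

lemma neg_le_clampZ {w x : ℤ} (hw : 0 ≤ w) : -w ≤ clampZ w x := by unfold clampZ; omega

/-- Past `k` the right star is saturated. -/
lemma certC_big_i (k g i : ℕ) (a : ℕ → ℤ) (ha : ∀ i, a i = 1 ∨ a i = -1) (hl : g + i ≤ 2 * k)
    (hi : k < i) : certC k g a (g + i) = a (g + i) * wd k (g + i) := by
  have hw0 := wd_nonneg (k := k) hl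
  have hW : clampZ (wd k (g + i)) (((g + i : ℕ) : ℤ) - 2 * g) = wd k (g + i) := by
    unfold clampZ wd; push_cast; omega
  unfold certC
  rw [if_pos (Nat.le_add_right g i), hW]
  have h2 := clampZ_le (x := sumR k a (g + i)) hw0
  have h3 := neg_le_clampZ (x := sumR k a (g + i)) hw0
  rcases ha (g + i) with h1 | h1 <;> rw [h1] <;> omega

/-- Far from the gap the left star is saturated. -/
lemma certC_big_j (k g n i : ℕ) (b : ℕ → ℤ) (hb : ∀ i, b i = 1 ∨ b i = -1) (hl : g + i ≤ 2 * k)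
    (hin : i ≤ n) (hj : (k : ℤ) < (n : ℤ) - i) :
    certC k (g + n + 1) b (g + i) = b (g + i) * wd k (g + i) := by
  have hw0 := wd_nonneg (k := k) hl
  have hW : clampZ (wd k (g + i)) (2 * ((g + n + 1 : ℕ) : ℤ) - 2 - 2 * k - ((g + i : ℕ) : ℤ))
      = wd k (g + i) := by
    unfold clampZ wd; push_cast; omega
  unfold certC
  rw [if_neg (by omega), hW]
  have h2 := clampZ_le (x := sumL b (g + i)) hw0
  have h3 := neg_le_clampZ (x := sumL b (g + i)) hw0
  rcases hb (g + i) with h1 | h1 <;> rw [h1] <;> omega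

lemma certC_abs_le {k g l : ℕ} {a : ℕ → ℤ} (hl : l ≤ 2 * k) (ha : ∀ i, a i = 1 ∨ a i = -1) :
    -wd k l ≤ certC k g a l ∧ certC k g a l ≤ wd k l := by
  obtain ⟨c, h1, h2, h3⟩ := certC_shape (k := k) (g := g) (a := a) hl ha
  omega

/-- The abstract pointwise step. -/
lemma abs_point {C C' G w P Q X Y : ℤ} (hX : X = 1 ∨ X = -1) (hY : Y = 1 ∨ Y = -1)
    (hC1 : -w ≤ C) (hC2 : C ≤ w) (hC'1 : -w ≤ C') (hC'2 : C' ≤ w)
    (hsum : C + C' = 2 * G - 2 * (X * P) - 2 * (Y * Q)) (hP0 : 0 ≤ P) (hQ0 : 0 ≤ Q)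
    (hcase : (P = 0 ∧ Q = 0) ∨ (Q = 0 ∧ C = X * w) ∨ (P = 0 ∧ C' = Y * w)) :
    |C + C'| ≤ 2 * |G| - 2 * P - 2 * Q := by
  rcases hcase with ⟨rfl, rfl⟩ | ⟨rfl, h⟩ | ⟨rfl, h⟩
  · simp only [mul_zero, sub_zero] at hsum ⊢
    rw [hsum, abs_mul]
    simp
  · rcases hX with rfl | rfl <;> simp only [mul_zero, sub_zero, one_mul, neg_mul] at hsum h ⊢ <;>
      rcases abs_cases (C + C') with ⟨h1, h2⟩ | ⟨h1, h2⟩ <;>
      rcases abs_cases G with ⟨h3, h4⟩ | ⟨h3, h4⟩ <;> omega
  · rcases hY with rfl | rfl <;> simp only [mul_zero, sub_zero, one_mul, neg_mul] at hsum h ⊢ <;>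
      rcases abs_cases (C + C') with ⟨h1, h2⟩ | ⟨h1, h2⟩ <;>
      rcases abs_cases G with ⟨h3, h4⟩ | ⟨h3, h4⟩ <;> omega

end MidAux

open MidAux

/-- The middle part. -/
theorem mid_part (k g n : ℕ) (hh : g + n + 1 ≤ 2 * k + 1) (a b : ℕ → ℤ)
    (ha : ∀ i, a i = 1 ∨ a i = -1) (hb : ∀ i, b i = 1 ∨ b i = -1) :
    ∑ l ∈ Ico g (g + n + 1), |certC k g a l + certC k (g + n + 1) b l|
      ≤ ∑ l ∈ Ico g (g + n + 1), (((l : ℤ) - g) + a l * (sumL b l - sumL b g))
        + 2 * ∑ s ∈ range (n + 1), |DD k g (g + n + 1) (onesR k a (g + n + 1)) (onesL b g) s|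
        - 4 * tri ((n : ℤ) - k) := by
  set a1 := onesR k a (g + n + 1) with ha1
  set b1 := onesL b g with hb1
  set x : ℕ → Bool := fun v => decide (a (g + v) = 1) with hx
  set y : ℕ → Bool := fun v => decide (b (g + v) = 1) with hy
  set W : ℕ → ℤ := fun s => clampI (b1 + s) (((g + n + 1 : ℕ) : ℤ) - k - 1) k with hW
  have hV : ∀ s, W s ≤ W (s + 1) ∧ W (s + 1) ≤ W s + 1 := by
    intro s
    simp only [hW, clampI]
    push_cast
    omega
  have habs := abs_lemma n W x y hV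
  have hsx := sum_sx n x (fun s => |DD k g (g + n + 1) a1 b1 s|)
  have hpoint : ∀ i ∈ range (n + 1), |certC k g a (g + i) + certC k (g + n + 1) b (g + i)|
      ≤ 2 * |DD k g (g + n + 1) a1 b1 (sx n x i)| + 2 * |xiV W n x y i|
        - 2 * max ((i : ℤ) - k) 0 - 2 * max ((n : ℤ) - i - k) 0 := by
    intro i hi
    have hin : i ≤ n := by simp only [mem_range] at hi; omega
    have hl : g + i ≤ 2 * k := by omega
    have hCa := certC_a_form k g n i hh hin a ha
    have hCb := certC_b_form k g n i hh hin b hb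
    rw [← ha1, ← hx] at hCa
    rw [← hb1, ← hy] at hCb
    obtain ⟨hA1, hA2⟩ := certC_abs_le (g := g) hl ha
    obtain ⟨hB1, hB2⟩ := certC_abs_le (g := g + n + 1) hl hb
    set G : ℤ := DD k g (g + n + 1) a1 b1 (sx n x i) + xiV W n x y i with hG
    have hP0 : (0 : ℤ) ≤ max ((i : ℤ) - k) 0 := le_max_right _ _
    have hQ0 : (0 : ℤ) ≤ max ((n : ℤ) - i - k) 0 := le_max_right _ _
    have hmain := abs_point (C := certC k g a (g + i)) (C' := certC k (g + n + 1) b (g + i))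
      (G := G) (w := wd k (g + i)) (P := max ((i : ℤ) - k) 0) (Q := max ((n : ℤ) - i - k) 0)
      (X := a (g + i)) (Y := b (g + i)) (ha _) (hb _) hA1 hA2 hB1 hB2 ?_ hP0 hQ0 ?_
    · have htri : |G| ≤ |DD k g (g + n + 1) a1 b1 (sx n x i)| + |xiV W n x y i| := abs_add_le _ _
      linarith
    · -- algebra
      rw [hCa, hCb, hG]
      unfold DD xiV
      have hsxx : ((sx n x i : ℕ) : ℤ) = (bc n x i : ℤ) + (if a (g + i) = 1 then 0 else (i : ℤ)) := by
        unfold sx
        by_cases h1 : a (g + i) = 1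
        · have : x i = true := by simp [hx, h1]
          rw [if_pos this, if_pos h1]; simp
        · have : ¬ x i = true := by simp [hx, h1]
          rw [if_neg this, if_neg h1]; push_cast; rfl
      have hyy : (if y i = true then (bc n x i : ℤ) else (bc n x i : ℤ) - ((n : ℤ) - i))
          = (bc n x i : ℤ) - (if b (g + i) = 1 then 0 else ((n : ℤ) - i)) := by
        by_cases h1 : b (g + i) = 1
        · have : y i = true := by simp [hy, h1]
          rw [if_pos this, if_pos h1]; ring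
        · have : ¬ y i = true := by simp [hy, h1]
          rw [if_neg this, if_neg h1]
      rw [hyy]
      simp only [hW]
      linear_combination 2 * hsxx
    · by_cases hik : (k : ℤ) < i
      · have hQ : max ((n : ℤ) - i - k) 0 = 0 := by omega
        exact Or.inr (Or.inl ⟨hQ, certC_big_i k g i a ha hl (by omega)⟩)
      · by_cases hjk : (k : ℤ) < (n : ℤ) - i
        · have hP : max ((i : ℤ) - k) 0 = 0 := by omega
          exact Or.inr (Or.inr ⟨hP, certC_big_j k g n i b hb hl hin hjk⟩)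
        · exact Or.inl ⟨by omega, by omega⟩
  have hTT : ∑ i ∈ range (n + 1), (((g + i : ℕ) : ℤ) - g + a (g + i) * (sumL b (g + i) - sumL b g))
      = 2 * TT n x y := by
    unfold TT
    rw [Finset.mul_sum]
    refine Finset.sum_congr rfl fun v _ => ?_
    have h1 := sumL_eq b hb (g + v)
    have h2 := sumL_eq b hb g
    have h3 := onesL_split g v b
    have h4 : sumL b (g + v) - sumL b g = 2 * (ac y v : ℤ) - v := by
      rw [h1, h2, h3]; push_cast; ring
    rw [h4]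
    by_cases h5 : a (g + v) = 1
    · have : x v = true := by simp [hx, h5]
      rw [if_pos this, h5]; push_cast; ring
    · have h6 : a (g + v) = -1 := (ha _).resolve_left h5
      have : ¬ x v = true := by simp [hx, h5]
      rw [if_neg this, h6]; push_cast; ring
  have hsum1 : ∑ i ∈ range (n + 1), max ((i : ℤ) - k) 0 = tri ((n : ℤ) - k) := by
    have := sum_max_add (-(k : ℤ)) (n + 1)
    have h2 : ∑ s ∈ range (n + 1), max ((s : ℤ) - k) 0 = ∑ s ∈ range (n + 1), max (-(k : ℤ) + s) 0 :=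
      Finset.sum_congr rfl (fun s _ => by rw [neg_add_eq_sub])
    rw [h2, this, tri_of_nonpos (x := -(k : ℤ) - 1) (by omega), sub_zero]
    congr 1
    push_cast
    ring
  have hsum2 : ∑ i ∈ range (n + 1), max ((n : ℤ) - i - k) 0 = tri ((n : ℤ) - k) := by
    have := sum_max_sub ((n : ℤ) - k) (n + 1)
    have h2 : ∑ s ∈ range (n + 1), max ((n : ℤ) - s - k) 0
        = ∑ s ∈ range (n + 1), max ((n : ℤ) - k - s) 0 :=
      Finset.sum_congr rfl (fun s _ => by rw [sub_right_comm])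
    rw [h2, this, tri_of_nonpos (x := (n : ℤ) - k - ((n + 1 : ℕ) : ℤ)) (by push_cast; omega), sub_zero]
  have hcast : g + n + 1 - g = n + 1 := by omega
  rw [Finset.sum_Ico_eq_sum_range, Finset.sum_Ico_eq_sum_range, hcast, hTT, ← hsx]
  calc ∑ i ∈ range (n + 1), |certC k g a (g + i) + certC k (g + n + 1) b (g + i)|
      ≤ ∑ i ∈ range (n + 1), (2 * |DD k g (g + n + 1) a1 b1 (sx n x i)| + 2 * |xiV W n x y i|
        - 2 * max ((i : ℤ) - k) 0 - 2 * max ((n : ℤ) - i - k) 0) := Finset.sum_le_sum hpoint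
    _ = 2 * ∑ i ∈ range (n + 1), |DD k g (g + n + 1) a1 b1 (sx n x i)|
        + 2 * ∑ i ∈ range (n + 1), |xiV W n x y i|
        - 2 * ∑ i ∈ range (n + 1), max ((i : ℤ) - k) 0
        - 2 * ∑ i ∈ range (n + 1), max ((n : ℤ) - i - k) 0 := by
          simp only [Finset.sum_sub_distrib, Finset.sum_add_distrib, Finset.mul_sum]
    _ ≤ _ := by
          rw [hsum1, hsum2]
          linarith

end Vale.Agent.Lib.P040K
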