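import Vale.Agent.Lib.P040K.Defs

/-!
Splitting the two sums of `KeyIneq` by `[0, g)`, `[g, h)`, `[h, 2k]`.
-/

namespace Vale.Agent.Lib.P040K

open Finset Vale.Agent.Lib.P040.Gen

private lemma clampZ_zero (x : ℤ) : clampZ 0 x = 0 := by
  unfold clampZ
  omega

private lemma certC_of_wd_zero (k g : ℕ) (a : ℕ → ℤ) (l : ℕ) (hw : wd k l = 0) : certC k g a l = 0 := by
  unfold certC
  rw [hw]
  simp [clampZ_zero]

private lemma grpAgree_of_wd_zero (k g h : ℕ) (a b : ℕ → ℤ) (l : ℕ) (hw : wd k l = 0) :
    grpAgree k g h a b l = 0 := by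
  unfold grpAgree
  rw [certC_of_wd_zero k g a l hw, certC_of_wd_zero k h b l hw, hw]
  simp

/-- `certC` vanishes at `l = 0` and `l = 2k` (`wd = 0`), so the sum may run over all `l ≤ 2k`. -/
theorem sum_agree_split (k g h : ℕ) (hgh : g ≤ h) (hh : h ≤ 2 * k + 1) (a b : ℕ → ℤ) :
    ∑ l ∈ Icc 1 (2 * k - 1), grpAgree k g h a b l
      = ∑ l ∈ range g, (2 * wd k l - |certC k g a l - certC k h b l|)
        + ∑ l ∈ Ico g h, |certC k g a l + certC k h b l|
        + ∑ l ∈ Ico h (2 * k + 1), (2 * wd k l - |certC k g a l - certC k h b l|) := by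
  have h1 : ∑ l ∈ Icc 1 (2 * k - 1), grpAgree k g h a b l
      = ∑ l ∈ range (2 * k + 1), grpAgree k g h a b l := by
    apply sum_subset
    · intro l hl
      rw [mem_Icc] at hl
      rw [mem_range]
      omega
    · intro l hl hl'
      rw [mem_range] at hl
      rw [mem_Icc] at hl'
      apply grpAgree_of_wd_zero
      have : l = 0 ∨ l = 2 * k := by omega
      rcases this with rfl | rfl
      · unfold wd
        simp
      · unfold wd
        push_cast
        simp
  rw [h1, range_eq_Ico, ← sum_Ico_consecutive _ (Nat.zero_le h) hh,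
    ← sum_Ico_consecutive _ (Nat.zero_le g) hgh, ← range_eq_Ico]
  congr 1
  · congr 1
    · apply sum_congr rfl
      intro l hl
      rw [mem_range] at hl
      unfold grpAgree
      rw [if_pos (Or.inr ⟨hl, by omega⟩)]
    · apply sum_congr rfl
      intro l hl
      rw [mem_Ico] at hl
      unfold grpAgree
      rw [if_neg (by omega)]
  · apply sum_congr rfl
    intro l hl
    rw [mem_Ico] at hl
    unfold grpAgree
    rw [if_pos (Or.inl ⟨by omega, hl.1⟩)]

private lemma sum_if_eq (s t : Finset ℕ) (p : ℕ → Prop) [DecidablePred p] (f : ℕ → ℤ)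
    (h : ∀ x, x ∈ t ↔ x ∈ s ∧ p x) : ∑ x ∈ s, (if p x then f x else 0) = ∑ x ∈ t, f x := by
  rw [← sum_filter]
  apply sum_congr _ (fun _ _ => rfl)
  ext x
  rw [mem_filter, h]

/-- The crossings in four parts. -/
theorem cr2_split (k g h : ℕ) (hgh : g ≤ h) (hh : h ≤ 2 * k + 1) (a b : ℕ → ℤ)
    (ha : ∀ i, a i = 1 ∨ a i = -1) (hb : ∀ i, b i = 1 ∨ b i = -1) :
    cr2 k g h a b
      = ∑ l ∈ range g, ((l : ℤ) + b l * sumL a l)
        + ∑ l ∈ Ico g h, (((l : ℤ) - g) + a l * (sumL b l - sumL b g))
        + ∑ l ∈ Ico h (2 * k + 1), (((2 * k : ℤ) - l) + a l * sumR k b l)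
        + 2 * (onesR k a h * onesL b g
            + (((2 * k + 1 - h : ℕ) : ℤ) - onesR k a h) * ((g : ℤ) - onesL b g)) := by
  set N := 2 * k + 1 with hN
  -- pointwise split of the relation
  have hsplit : ∀ i j, (if Rel g h i j then 1 + a i * b j else 0)
      = (if i < j ∧ j < g then 1 + a i * b j else 0)
        + (if g ≤ j ∧ j < i ∧ i < h then 1 + a i * b j else 0)
        + (if h ≤ i ∧ i < j then 1 + a i * b j else 0)
        + (if h ≤ i ∧ j < g then 1 + a i * b j else 0) := by
    intro i j
    have hiff : Vale.Agent.Lib.P040.Gen.Rel g h i j ↔ ((i < j ∧ j < g) ∨ (g ≤ j ∧ j < i ∧ i < h) ∨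
        (h ≤ i ∧ i < j) ∨ (h ≤ i ∧ j < g)) := Iff.rfl
    by_cases h1 : i < j ∧ j < g
    · rw [if_pos (hiff.2 (Or.inl h1)), if_pos h1, if_neg (by omega), if_neg (by omega), if_neg (by omega)]
      ring
    · by_cases h2 : g ≤ j ∧ j < i ∧ i < h
      · rw [if_pos (hiff.2 (Or.inr (Or.inl h2))), if_neg h1, if_pos h2, if_neg (by omega), if_neg (by omega)]
        ring
      · by_cases h3 : h ≤ i ∧ i < j
        · rw [if_pos (hiff.2 (Or.inr (Or.inr (Or.inl h3)))), if_neg h1, if_neg h2, if_pos h3, if_neg (by omega)]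
          ring
        · by_cases h4 : h ≤ i ∧ j < g
          · rw [if_pos (hiff.2 (Or.inr (Or.inr (Or.inr h4)))), if_neg h1, if_neg h2, if_neg h3, if_pos h4]
            ring
          · rw [if_neg (fun hr => by rcases hiff.1 hr with h | h | h | h <;> tauto), if_neg h1, if_neg h2, if_neg h3, if_neg h4]
            ring
  -- first region
  have T1 : ∑ i ∈ range N, ∑ j ∈ range N, (if i < j ∧ j < g then 1 + a i * b j else 0)
      = ∑ l ∈ range g, ((l : ℤ) + b l * sumL a l) := by
    rw [sum_comm]
    have hin : ∀ j ∈ range N, ∑ i ∈ range N, (if i < j ∧ j < g then 1 + a i * b j else 0)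
        = if j < g then ((j : ℤ) + b j * sumL a j) else 0 := by
      intro j hj
      rw [mem_range] at hj
      by_cases hjg : j < g
      · rw [if_pos hjg, sum_if_eq (range N) (range j) (fun i => i < j ∧ j < g) (fun i => 1 + a i * b j)
          (by intro x; simp only [mem_range]; omega)]
        unfold sumL
        rw [sum_add_distrib, sum_const, card_range, mul_sum]
        simp only [nsmul_eq_mul, mul_one]
        congr 1
        apply sum_congr rfl
        intro i _
        ring
      · rw [if_neg hjg]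
        apply sum_eq_zero
        intro i _
        rw [if_neg (by omega)]
    rw [sum_congr rfl hin, sum_if_eq (range N) (range g) (fun j => j < g) (fun j => (j : ℤ) + b j * sumL a j)
      (by intro x; simp only [mem_range]; omega)]
  -- second region
  have T2 : ∑ i ∈ range N, ∑ j ∈ range N, (if g ≤ j ∧ j < i ∧ i < h then 1 + a i * b j else 0)
      = ∑ l ∈ Ico g h, (((l : ℤ) - g) + a l * (sumL b l - sumL b g)) := by
    have hin : ∀ i ∈ range N, ∑ j ∈ range N, (if g ≤ j ∧ j < i ∧ i < h then 1 + a i * b j else 0)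
        = if g ≤ i ∧ i < h then (((i : ℤ) - g) + a i * (sumL b i - sumL b g)) else 0 := by
      intro i hi
      rw [mem_range] at hi
      by_cases hig : g ≤ i ∧ i < h
      · rw [if_pos hig, sum_if_eq (range N) (Ico g i) (fun j => g ≤ j ∧ j < i ∧ i < h) (fun j => 1 + a i * b j)
          (by intro x; simp only [mem_range, mem_Ico]; omega)]
        unfold sumL
        rw [← sum_Ico_eq_sub _ hig.1, sum_add_distrib, sum_const, Nat.card_Ico, mul_sum]
        simp only [nsmul_eq_mul, mul_one]
        rw [Nat.cast_sub hig.1]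
      · rw [if_neg hig]
        apply sum_eq_zero
        intro j _
        rw [if_neg (by omega)]
    rw [sum_congr rfl hin, sum_if_eq (range N) (Ico g h) (fun i => g ≤ i ∧ i < h)
      (fun i => ((i : ℤ) - g) + a i * (sumL b i - sumL b g))
      (by intro x; simp only [mem_range, mem_Ico]; omega)]
  -- third region
  have T3 : ∑ i ∈ range N, ∑ j ∈ range N, (if h ≤ i ∧ i < j then 1 + a i * b j else 0)
      = ∑ l ∈ Ico h N, (((2 * k : ℤ) - l) + a l * sumR k b l) := by
    have hin : ∀ i ∈ range N, ∑ j ∈ range N, (if h ≤ i ∧ i < j then 1 + a i * b j else 0)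
        = if h ≤ i then (((2 * k : ℤ) - i) + a i * sumR k b i) else 0 := by
      intro i hi
      rw [mem_range] at hi
      by_cases hig : h ≤ i
      · rw [if_pos hig, sum_if_eq (range N) (Ioc i (2 * k)) (fun j => h ≤ i ∧ i < j) (fun j => 1 + a i * b j)
          (by intro x; simp only [mem_range, mem_Ioc]; omega)]
        unfold sumR
        rw [sum_add_distrib, sum_const, Nat.card_Ioc, mul_sum]
        simp only [nsmul_eq_mul, mul_one]
        have : i ≤ 2 * k := by omega
        rw [Nat.cast_sub this]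
        push_cast
        rfl
      · rw [if_neg hig]
        apply sum_eq_zero
        intro j _
        rw [if_neg (by omega)]
    rw [sum_congr rfl hin, sum_if_eq (range N) (Ico h N) (fun i => h ≤ i)
      (fun i => ((2 * k : ℤ) - i) + a i * sumR k b i)
      (by intro x; simp only [mem_range, mem_Ico]; omega)]
  -- fourth region
  have T4 : ∑ i ∈ range N, ∑ j ∈ range N, (if h ≤ i ∧ j < g then 1 + a i * b j else 0)
      = 2 * (onesR k a h * onesL b g
            + (((N - h : ℕ) : ℤ) - onesR k a h) * ((g : ℤ) - onesL b g)) := by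
    have hin : ∀ i ∈ range N, ∑ j ∈ range N, (if h ≤ i ∧ j < g then 1 + a i * b j else 0)
        = if h ≤ i then ∑ j ∈ range g, (1 + a i * b j) else 0 := by
      intro i hi
      by_cases hig : h ≤ i
      · rw [if_pos hig, sum_if_eq (range N) (range g) (fun j => h ≤ i ∧ j < g) (fun j => 1 + a i * b j)
          (by intro x; simp only [mem_range]; omega)]
      · rw [if_neg hig]
        apply sum_eq_zero
        intro j _
        rw [if_neg (by omega)]
    rw [sum_congr rfl hin, sum_if_eq (range N) (Ico h N) (fun i => h ≤ i)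
      (fun i => ∑ j ∈ range g, (1 + a i * b j))
      (by intro x; simp only [mem_range, mem_Ico]; omega)]
    set u : ℕ → ℤ := fun i => if a i = 1 then 1 else 0 with hu
    set v : ℕ → ℤ := fun j => if b j = 1 then 1 else 0 with hv
    have hprod : ∀ i j, 1 + a i * b j = 2 * (u i * v j + (1 - u i) * (1 - v j)) := by
      intro i j
      simp only [hu, hv]
      rcases ha i with h1 | h1 <;> rcases hb j with h2 | h2 <;> simp [h1, h2]
    have hR : onesR k a h = ∑ i ∈ Ico h N, u i := rfl
    have hL : onesL b g = ∑ j ∈ range g, v j := rfl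
    have hcard1 : ((N - h : ℕ) : ℤ) - onesR k a h = ∑ i ∈ Ico h N, (1 - u i) := by
      rw [hR, sum_sub_distrib, sum_const, Nat.card_Ico]
      simp
    have hcard2 : (g : ℤ) - onesL b g = ∑ j ∈ range g, (1 - v j) := by
      rw [hL, sum_sub_distrib, sum_const, card_range]
      simp
    rw [hcard1, hcard2, hR, hL, sum_mul_sum, sum_mul_sum, ← sum_add_distrib, mul_sum]
    apply sum_congr rfl
    intro i _
    rw [← sum_add_distrib, mul_sum]
    apply sum_congr rfl
    intro j _
    exact hprod i j
  unfold cr2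
  rw [← hN]
  simp only [hsplit]
  simp only [sum_add_distrib]
  rw [T1, T2, T3, T4]
  simp only [sum_add_distrib]

/-- Range of the counts. -/
theorem onesR_bounds (k m : ℕ) (hm : m ≤ 2 * k + 1) (a : ℕ → ℤ) :
    0 ≤ onesR k a m ∧ onesR k a m ≤ 2 * k + 1 - m := by
  unfold onesR
  constructor
  · apply sum_nonneg
    intro i _
    split_ifs <;> norm_num
  · have h1 : ∑ i ∈ Ico m (2 * k + 1), (if a i = 1 then (1:ℤ) else 0) ≤ ∑ i ∈ Ico m (2 * k + 1), (1:ℤ) := by
      apply sum_le_sum
      intro i _
      split_ifs <;> norm_num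
    refine h1.trans (le_of_eq ?_)
    rw [sum_const, Nat.card_Ico]
    simp only [nsmul_eq_mul, mul_one]
    rw [Nat.cast_sub hm]
    push_cast
    ring

theorem onesL_bounds (m : ℕ) (a : ℕ → ℤ) : 0 ≤ onesL a m ∧ onesL a m ≤ m := by
  unfold onesL
  constructor
  · apply sum_nonneg
    intro i _
    split_ifs <;> norm_num
  · have h1 : ∑ i ∈ range m, (if a i = 1 then (1:ℤ) else 0) ≤ ∑ i ∈ range m, (1:ℤ) := by
      apply sum_le_sum
      intro i _
      split_ifs <;> norm_num
    refine h1.trans (le_of_eq ?_)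
    rw [sum_const, card_range]
    simp

end Vale.Agent.Lib.P040K
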