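import Vale.Agent.Lib.P040K.Left
import Vale.Agent.Lib.P040K.Mid
import Vale.Agent.Lib.P040K.Arith
import Vale.Agent.Lib.P040K.Split

/-!
The key inequality for all `k`, hence Zarankiewicz's bound for every two-page drawing.
-/

namespace Vale.Agent.Lib.P040K

open Finset Vale.Agent.Lib.P040 Vale.Agent.Lib.P040.Gen

theorem keyIneq (k : ℕ) : KeyIneq k := by
  intro g h a b hgh hh ha hb
  rw [sum_agree_split k g h hgh hh a b, cr2_split k g h hgh hh a b ha hb]
  have hL := left_part k g h hgh hh a b ha hb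
  have hR := right_part k g h hgh hh a b ha hb
  obtain ⟨h1, h2⟩ := onesR_bounds k h hh a
  obtain ⟨h3, h4⟩ := onesL_bounds g b
  have hA := arith_close k g h hgh hh (onesR k a h) (onesL b g) h1 (by omega) h3 h4
  have hc : ((2 * k + 1 - h : ℕ) : ℤ) = (2 * (k : ℤ) + 1 - (h : ℤ)) := by omega
  rw [hc] at hR ⊢
  rcases Nat.eq_or_lt_of_le hgh with rfl | hlt
  · have h0 : tri ((g : ℤ) - g - 1 - k) = 0 := tri_of_nonpos (by omega)
    rw [h0] at hA
    simp only [Finset.Ico_self, Finset.sum_empty, Nat.sub_self, Finset.range_zero] at hA ⊢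
    linarith
  · obtain ⟨n, rfl⟩ : ∃ n, h = g + n + 1 := ⟨h - g - 1, by omega⟩
    have hM := mid_part k g n hh a b ha hb
    have e1 : g + n + 1 - g = n + 1 := by omega
    have e2 : ((g + n + 1 : ℕ) : ℤ) - g - 1 - k = (n : ℤ) - k := by push_cast; ring
    rw [e1, e2] at hA
    linarith

theorem two_page_all (m n : ℕ) (D : TwoPageDrawing m n) : zar m * zar n ≤ D.crossings :=
  main_of_key keyIneq m n D

end Vale.Agent.Lib.P040K
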