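import Vale.Agent.Lib.P040K.Right
import Vale.Agent.Lib.P040.Mirror

/-!
The left end, by the mirror `i ↦ 2k - i`, `g ↦ 2k + 1 - g`: the star at the larger gap `h` pays the cost.
-/

namespace Vale.Agent.Lib.P040K

open Finset Vale.Agent.Lib.P040.Gen

/-- The mirror of a word. -/
def mir (k : ℕ) (a : ℕ → ℤ) (i : ℕ) : ℤ := a (2 * k - i)

/-- `certC` is mirror symmetric, in every group `l ≤ 2k`. -/
theorem certC_mir (k g : ℕ) (hg : g ≤ 2 * k + 1) (a : ℕ → ℤ) (l : ℕ) (hl : l ≤ 2 * k) :
    certC k (2 * k + 1 - g) (mir k a) (2 * k - l) = certC k g a l :=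
  certC_rev k g a l hl hg

theorem onesR_mir (k g : ℕ) (hg : g ≤ 2 * k + 1) (b : ℕ → ℤ) :
    onesR k (mir k b) (2 * k + 1 - g) = onesL b g := by
  unfold onesR onesL mir
  refine Finset.sum_bij (fun i _ => 2 * k - i) ?_ ?_ ?_ ?_
  · intro i hi
    simp only [mem_Ico, mem_range] at hi ⊢
    omega
  · intro i hi j hj hij
    simp only [mem_Ico] at hi hj
    omega
  · intro j hj
    simp only [mem_range] at hj
    refine ⟨2 * k - j, ?_, ?_⟩
    · simp only [mem_Ico]
      omega
    · omega
  · intro i _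
    rfl

/-- The left part: mirror of `right_part` for the stars `(2k+1-h, mir b)`, `(2k+1-g, mir a)`. -/
theorem left_part (k g h : ℕ) (hgh : g ≤ h) (hh : h ≤ 2 * k + 1) (a b : ℕ → ℤ)
    (ha : ∀ i, a i = 1 ∨ a i = -1) (hb : ∀ i, b i = 1 ∨ b i = -1) :
    ∑ l ∈ range g, (2 * wd k l - |certC k g a l - certC k h b l|)
      ≤ ∑ l ∈ range g, ((l : ℤ) + b l * sumL a l)
        + 2 * band (onesL b g) ((g : ℤ) - onesL b g) ((h : ℤ) - k - 1) k := by
  have hg : g ≤ 2 * k + 1 := le_trans hgh hh
  have H := right_part k (2 * k + 1 - h) (2 * k + 1 - g) (by omega) (by omega) (mir k b) (mir k a)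
    (fun i => hb _) (fun i => ha _)
  have h1 : ∑ l ∈ Ico (2 * k + 1 - g) (2 * k + 1),
      (2 * wd k l - |certC k (2 * k + 1 - h) (mir k b) l - certC k (2 * k + 1 - g) (mir k a) l|)
      = ∑ l ∈ range g, (2 * wd k l - |certC k g a l - certC k h b l|) := by
    refine Finset.sum_bij (fun l _ => 2 * k - l) ?_ ?_ ?_ ?_
    · intro l hl
      simp only [mem_Ico, mem_range] at hl ⊢
      omega
    · intro i hi j hj hij
      simp only [mem_Ico] at hi hj
      omega
    · intro j hj
      simp only [mem_range] at hj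
      refine ⟨2 * k - j, ?_, ?_⟩
      · simp only [mem_Ico]
        omega
      · omega
    · intro l hl
      simp only [mem_Ico] at hl
      have e1 := certC_mir k h hh b (2 * k - l) (by omega)
      have e2 := certC_mir k g hg a (2 * k - l) (by omega)
      have e3 : 2 * k - (2 * k - l) = l := by omega
      rw [e3] at e1 e2
      rw [e1, e2, wd_rev k (2 * k - l) (by omega) |>.symm.trans (by rw [e3]), abs_sub_comm]
  have h2 : ∑ l ∈ Ico (2 * k + 1 - g) (2 * k + 1),
      (((2 * k : ℤ) - l) + mir k b l * sumR k (mir k a) l)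
      = ∑ l ∈ range g, ((l : ℤ) + b l * sumL a l) := by
    refine Finset.sum_bij (fun l _ => 2 * k - l) ?_ ?_ ?_ ?_
    · intro l hl
      simp only [mem_Ico, mem_range] at hl ⊢
      omega
    · intro i hi j hj hij
      simp only [mem_Ico] at hi hj
      omega
    · intro j hj
      simp only [mem_range] at hj
      refine ⟨2 * k - j, ?_, ?_⟩
      · simp only [mem_Ico]
        omega
      · omega
    · intro l hl
      simp only [mem_Ico] at hl
      have e1 := sumR_rev k a (2 * k - l) (by omega)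
      have e3 : 2 * k - (2 * k - l) = l := by omega
      rw [e3] at e1
      have e4 : ((2 * k - l : ℕ) : ℤ) = 2 * (k : ℤ) - l := by omega
      have e5 : mir k b l = b (2 * k - l) := rfl
      have e6 : sumR k (mir k a) l = sumL a (2 * k - l) := e1
      rw [e5, e6, e4]
  rw [h1, h2, onesR_mir k g hg b] at H
  have h3 : (((2 * k + 1 - (2 * k + 1 - g) : ℕ) : ℤ)) = (g : ℤ) := by omega
  have h4 : (k : ℤ) - ((2 * k + 1 - h : ℕ) : ℤ) = (h : ℤ) - k - 1 := by omega
  rw [h3, h4] at H
  exact H

end Vale.Agent.Lib.P040K
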