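import Vale.Agent.Lib.P040K.Defs

/-!
The certificate values in a middle group, in closed form. All integer arithmetic: `omega` after unfolding
`min`, `max`, `clampZ`, `clampI`.
-/

namespace Vale.Agent.Lib.P040K

open Vale.Agent.Lib.P040.Gen

/-- Right star, letter `1`: `t` ones, `z` zeros right of `l = g + i`. -/
theorem x_form_one {k g i t z : ℤ} (hk : 0 ≤ k) (hg : 0 ≤ g) (hi : 0 ≤ i) (ht : 0 ≤ t) (hz : 0 ≤ z)
    (htz : t + z = 2 * k - (g + i)) (w : ℤ) (hw : w = min (g + i) (2 * k - (g + i))) :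
    max (clampZ w (t - z)) (clampZ w (g + i - 2 * g))
      = 2 * (clampI t (k - g) k - max (i - k) 0) - (2 * k - (g + i)) := by
  subst hw
  unfold clampZ clampI
  simp only [min_def, max_def]
  split_ifs <;> omega

/-- Right star, letter `0`. -/
theorem x_form_zero {k g i t z : ℤ} (hk : 0 ≤ k) (hg : 0 ≤ g) (hi : 0 ≤ i) (ht : 0 ≤ t) (hz : 0 ≤ z)
    (htz : t + z = 2 * k - (g + i)) (w : ℤ) (hw : w = min (g + i) (2 * k - (g + i))) :
    min (clampZ w (t - z)) (-clampZ w (g + i - 2 * g))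
      = 2 * (clampI (t + i) (k - g) k - i + max (i - k) 0) - (2 * k - (g + i)) := by
  subst hw
  unfold clampZ clampI
  simp only [min_def, max_def]
  split_ifs <;> omega

/-- Left star, letter `1`: `t` ones, `z` zeros left of `l = h - 1 - j`. -/
theorem y_form_one {k h j t z : ℤ} (hk : 0 ≤ k) (hj : 0 ≤ j) (ht : 0 ≤ t) (hz : 0 ≤ z)
    (hh : h ≤ 2 * k + 1) (htz : t + z = h - 1 - j) (w : ℤ) (hw : w = min (h - 1 - j) (2 * k - (h - 1 - j))) :
    max (clampZ w (t - z)) (clampZ w (2 * h - 2 - 2 * k - (h - 1 - j)))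
      = 2 * (clampI t (h - k - 1) k - max (j - k) 0) - (h - 1 - j) := by
  subst hw
  unfold clampZ clampI
  simp only [min_def, max_def]
  split_ifs <;> omega

/-- Left star, letter `0`. -/
theorem y_form_zero {k h j t z : ℤ} (hk : 0 ≤ k) (hj : 0 ≤ j) (ht : 0 ≤ t) (hz : 0 ≤ z)
    (hh : h ≤ 2 * k + 1) (htz : t + z = h - 1 - j) (w : ℤ) (hw : w = min (h - 1 - j) (2 * k - (h - 1 - j))) :
    min (clampZ w (t - z)) (-clampZ w (2 * h - 2 - 2 * k - (h - 1 - j)))
      = 2 * (clampI (t + j) (h - k - 1) k - j + max (j - k) 0) - (h - 1 - j) := by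
  subst hw
  unfold clampZ clampI
  simp only [min_def, max_def]
  split_ifs <;> omega

end Vale.Agent.Lib.P040K
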