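import Vale.Agent.Lib.P040K.Defs

/-!
One step of the right end: pure integer arithmetic. `t`, `z`: ones and zeros right of `l`, `t + z = 2k - l`.
-/

namespace Vale.Agent.Lib.P040K

open Vale.Agent.Lib.P040.Gen

theorem NN_succ_t (t z c : ℤ) : NN (t + 1) z c - NN t z c = max (c - t) 0 - max (c - t - z) 0 := by
  unfold NN
  have h1 := tri_sub_one (c - t)
  have h2 := tri_sub_one (c - t - z)
  have e1 : c - (t + 1) = c - t - 1 := by ring
  have e2 : c - t - 1 - z = c - t - z - 1 := by ring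
  rw [e1, e2]
  linarith

theorem NN_succ_z (t z c : ℤ) : NN t (z + 1) c - NN t z c = max (c - z) 0 - max (c - t - z) 0 := by
  unfold NN
  have h1 := tri_sub_one (c - z)
  have h2 := tri_sub_one (c - t - z)
  have e1 : c - (z + 1) = c - z - 1 := by ring
  have e2 : c - t - (z + 1) = c - t - z - 1 := by ring
  rw [e1, e2]
  linarith

/-- Pointwise bound of a right group (one line from triangle inequalities). `R' = sumR k b l`, `C, C'` the two
certificate values, `w = wd k l`, `2k - l = w + 2 off`. -/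
theorem right_pointwise {w off R' C C' s : ℤ} (hs : s = 1 ∨ s = -1) :
    (2 * w - |C - C'|) - ((w + 2 * off) + s * R') ≤ (w - s * C) + |R' - C'| - 2 * off := by
  rcases hs with rfl | rfl <;> rcases abs_cases (C - C') with ⟨h1, _⟩ | ⟨h1, _⟩ <;>
    rcases abs_cases (R' - C') with ⟨h2, _⟩ | ⟨h2, _⟩ <;> rw [h1, h2] <;> omega

/-- Cost step, letter `1`. -/
theorem x_step_one {k g l t z : ℤ} (hg : 0 ≤ g) (hgl : g ≤ l) (hl : 0 ≤ l) (ht : 0 ≤ t) (hz : 0 ≤ z)
    (htz : t + z = 2 * k - l) (w : ℤ) (hw : w = min l (2 * k - l)) :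
    w - max (clampZ w (t - z)) (clampZ w (l - 2 * g))
      ≤ 2 * (band (t + 1) z (k - g) k - band t z (k - g) k) := by
  have h1 := NN_succ_t t z k
  have h2 := NN_succ_t t z (k - g)
  unfold band clampZ
  omega

/-- Cost step, letter `0`. -/
theorem x_step_zero {k g l t z : ℤ} (hg : 0 ≤ g) (hgl : g ≤ l) (hl : 0 ≤ l) (ht : 0 ≤ t) (hz : 0 ≤ z)
    (htz : t + z = 2 * k - l) (w : ℤ) (hw : w = min l (2 * k - l)) :
    w + min (clampZ w (t - z)) (-clampZ w (l - 2 * g))
      ≤ 2 * (band t (z + 1) (k - g) k - band t z (k - g) k) := by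
  have h1 := NN_succ_z t z k
  have h2 := NN_succ_z t z (k - g)
  unfold band clampZ
  omega

/-- Potential of the violations of the star at gap `h`. -/
def PV (k h t z : ℤ) : ℤ := NN t z (k - h) + tri (t - 1 - k) + tri (z - 1 - k)

private theorem pv_diff_t (k h t z : ℤ) :
    PV k h (t + 1) z - PV k h t z = max (k - h - t) 0 - max (k - h - t - z) 0 + max (t - k) 0 := by
  have e1 := tri_sub_one (k - h - t)
  have e2 := tri_sub_one (k - h - t - z)
  have e3 := tri_sub_one (t - k)
  have a1 : k - h - (t + 1) = k - h - t - 1 := by ring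
  have a2 : k - h - t - 1 - z = k - h - t - z - 1 := by ring
  have a3 : t + 1 - 1 - k = t - k := by ring
  have a4 : t - 1 - k = t - k - 1 := by ring
  unfold PV NN
  rw [a1, a2, a3, a4]
  linarith

private theorem pv_diff_z (k h t z : ℤ) :
    PV k h t (z + 1) - PV k h t z = max (k - h - z) 0 - max (k - h - t - z) 0 + max (z - k) 0 := by
  have e1 := tri_sub_one (k - h - z)
  have e2 := tri_sub_one (k - h - t - z)
  have e3 := tri_sub_one (z - k)
  have a1 : k - h - (z + 1) = k - h - z - 1 := by ring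
  have a2 : k - h - t - (z + 1) = k - h - t - z - 1 := by ring
  have a3 : z + 1 - 1 - k = z - k := by ring
  have a4 : z - 1 - k = z - k - 1 := by ring
  unfold PV NN
  rw [a1, a2, a3, a4]
  linarith

/-- Violation step, letter `1`. -/
theorem v_step_one {k h l t z : ℤ} (hh : 0 ≤ h) (hhl : h ≤ l) (hl : 0 ≤ l) (ht : 0 ≤ t) (hz : 0 ≤ z)
    (htz : t + z = 2 * k - l) (w : ℤ) (hw : w = min l (2 * k - l)) :
    |(t - z) - max (clampZ w (t - z)) (clampZ w (l - 2 * h))|
      ≤ 2 * (PV k h (t + 1) z - PV k h t z) := by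
  rw [pv_diff_t, abs_le]
  unfold clampZ
  constructor <;> omega

/-- Violation step, letter `0`. -/
theorem v_step_zero {k h l t z : ℤ} (hh : 0 ≤ h) (hhl : h ≤ l) (hl : 0 ≤ l) (ht : 0 ≤ t) (hz : 0 ≤ z)
    (htz : t + z = 2 * k - l) (w : ℤ) (hw : w = min l (2 * k - l)) :
    |(t - z) - min (clampZ w (t - z)) (-clampZ w (l - 2 * h))|
      ≤ 2 * (PV k h t (z + 1) - PV k h t z) := by
  rw [pv_diff_z, abs_le]
  unfold clampZ
  constructor <;> omega

/-- The total potential is at most the total offset. `t + z = 2k + 1 - h`. -/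
theorem pv_end {k h t z : ℤ} (hh : 0 ≤ h) (hk : 0 ≤ k) (ht : 0 ≤ t) (hz : 0 ≤ z)
    (htz : t + z = 2 * k + 1 - h) : PV k h t z ≤ tri (k - h) := by
  unfold PV NN
  have a1 : k - h - t = z - 1 - k := by omega
  have a2 : k - h - z = t - 1 - k := by omega
  have a3 : tri (k - h - t - z) = 0 := tri_of_nonpos (by omega)
  rw [a3, a1, a2]
  linarith

end Vale.Agent.Lib.P040K
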