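import Vale.Agent.Lib.P040K.RStep

/-!
The right end: both stars read the suffixes.
-/

namespace Vale.Agent.Lib.P040K

open Finset Vale.Agent.Lib.P040.Gen

/-- Sum of the offsets. -/
theorem sum_off (k h : ℕ) :
    ∑ l ∈ Ico h (2 * k + 1), max ((k : ℤ) - l) 0 = tri ((k : ℤ) - h) := by
  by_cases hh : h ≤ 2 * k + 1
  · rw [Finset.sum_Ico_eq_sum_range]
    have e : ∀ s ∈ range (2 * k + 1 - h),
        max ((k : ℤ) - ((h + s : ℕ) : ℤ)) 0 = max (((k : ℤ) - h) - (s : ℤ)) 0 := by
      intro s _
      push_cast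
      congr 1
      ring
    rw [Finset.sum_congr rfl e, sum_max_sub]
    have h0 : tri ((k : ℤ) - h - ((2 * k + 1 - h : ℕ) : ℤ)) = 0 :=
      tri_of_nonpos (by omega)
    rw [h0]
    ring
  · rw [Ico_eq_empty_of_le (by omega)]
    simp only [Finset.sum_empty]
    exact (tri_of_nonpos (by omega)).symm

/-- Peeling the first letter of the count of ones. -/
private theorem right_onesR_succ (k : ℕ) (a : ℕ → ℤ) {m : ℕ} (hm : m ≤ 2 * k) :
    onesR k a m = (if a m = 1 then 1 else 0) + onesR k a (m + 1) := by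
  unfold onesR
  rw [Finset.sum_eq_sum_Ico_succ_bot (by omega : m < 2 * k + 1)]

private theorem right_onesR_top (k : ℕ) (a : ℕ → ℤ) : onesR k a (2 * k + 1) = 0 := by
  unfold onesR
  simp

private theorem right_onesR_bounds (k m : ℕ) (_hm : m ≤ 2 * k + 1) (a : ℕ → ℤ) :
    0 ≤ onesR k a m ∧ onesR k a m ≤ ((2 * k + 1 - m : ℕ) : ℤ) := by
  obtain ⟨d, hd⟩ : ∃ d, m + d = 2 * k + 1 := ⟨2 * k + 1 - m, by omega⟩
  induction d generalizing m with
  | zero =>
    have : m = 2 * k + 1 := by omega
    subst this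
    rw [right_onesR_top]
    simp
  | succ d ih =>
    have hm' : m ≤ 2 * k := by omega
    have h1 := ih (m + 1) (by omega) (by omega)
    rw [right_onesR_succ k a hm']
    split_ifs <;> omega

/-- The sum of the signs in terms of the ones. -/
private theorem right_sumR_eq (k : ℕ) (a : ℕ → ℤ) (ha : ∀ i, a i = 1 ∨ a i = -1) {m : ℕ}
    (hm : m ≤ 2 * k) :
    sumR k a m = 2 * onesR k a (m + 1) - ((2 * k + 1 - (m + 1) : ℕ) : ℤ) := by
  unfold sumR onesR
  have hIoc : Ioc m (2 * k) = Ico (m + 1) (2 * k + 1) := by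
    ext i
    simp only [Finset.mem_Ioc, Finset.mem_Ico]
    omega
  rw [hIoc, Finset.mul_sum]
  have hcard : ((2 * k + 1 - (m + 1) : ℕ) : ℤ) = ∑ _i ∈ Ico (m + 1) (2 * k + 1), (1 : ℤ) := by
    simp
  rw [hcard, ← Finset.sum_sub_distrib]
  refine Finset.sum_congr rfl fun i _ => ?_
  rcases ha i with h | h <;> simp [h]

/-- Total cost (downward induction on the start of the window, with `x_step_*`). -/
theorem cost_sum (k g m : ℕ) (hgm : g ≤ m) (hm : m ≤ 2 * k + 1) (a : ℕ → ℤ) (ha : ∀ i, a i = 1 ∨ a i = -1) :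
    ∑ l ∈ Ico m (2 * k + 1), (wd k l - a l * certC k g a l)
      ≤ 2 * band (onesR k a m) (((2 * k + 1 - m : ℕ) : ℤ) - onesR k a m) ((k : ℤ) - g) k := by
  obtain ⟨d, hd⟩ : ∃ d, m + d = 2 * k + 1 := ⟨2 * k + 1 - m, by omega⟩
  induction d generalizing m with
  | zero =>
    have : m = 2 * k + 1 := by omega
    subst this
    rw [right_onesR_top]
    simp [band, NN]
  | succ d ih =>
    have hm' : m ≤ 2 * k := by omega
    have IH := ih (m + 1) (by omega) (by omega) (by omega)
    rw [Finset.sum_eq_sum_Ico_succ_bot (by omega : m < 2 * k + 1)]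
    have hb := right_onesR_bounds k (m + 1) (by omega) a
    have hs := right_sumR_eq k a ha hm'
    have hone := right_onesR_succ k a hm'
    set t : ℤ := onesR k a (m + 1) with ht
    set z : ℤ := ((2 * k + 1 - (m + 1) : ℕ) : ℤ) - t with hz
    have hz0 : 0 ≤ z := by omega
    have htz : t + z = 2 * (k : ℤ) - (m : ℤ) := by omega
    have hsum : sumR k a m = t - z := by omega
    have hcert : certC k g a m
        = a m * max (a m * clampZ (wd k m) (t - z)) (clampZ (wd k m) ((m : ℤ) - 2 * g)) := by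
      unfold certC
      rw [if_pos hgm, hsum]
    have hw : wd k m = min (m : ℤ) (2 * (k : ℤ) - m) := rfl
    rcases ha m with h1 | h1
    · have hos : onesR k a m = t + 1 := by rw [hone, if_pos h1]; ring
      have hzz : ((2 * k + 1 - m : ℕ) : ℤ) - onesR k a m = z := by omega
      have hstep := x_step_one (k := (k : ℤ)) (g := (g : ℤ)) (l := (m : ℤ)) (t := t) (z := z)
        (by omega) (by omega) (by omega) hb.1 hz0 htz (wd k m) hw
      rw [hzz, hos, hcert, h1]
      simp only [one_mul]
      omega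
    · have hos : onesR k a m = t := by
        rw [hone, if_neg (by rw [h1]; norm_num)]
        ring
      have hzz : ((2 * k + 1 - m : ℕ) : ℤ) - onesR k a m = z + 1 := by omega
      have hstep := x_step_zero (k := (k : ℤ)) (g := (g : ℤ)) (l := (m : ℤ)) (t := t) (z := z)
        (by omega) (by omega) (by omega) hb.1 hz0 htz (wd k m) hw
      rw [hzz, hos, hcert, h1]
      generalize clampZ (wd k m) (t - z) = A at hstep ⊢
      generalize clampZ (wd k m) ((m : ℤ) - 2 * g) = B at hstep ⊢
      have hE : -1 * (-1 * max (-1 * A) B) = -min A (-B) := by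
        rcases le_total A (-B) with hAB | hAB
        · rw [min_eq_left hAB, max_eq_left (by omega)]
          ring
        · rw [min_eq_right hAB, max_eq_right (by omega)]
          ring
      rw [hE]
      omega

/-- The potential bound behind `viol_sum`. -/
private theorem viol_sum_aux (k h m : ℕ) (hhm : h ≤ m) (hm : m ≤ 2 * k + 1) (b : ℕ → ℤ)
    (hb : ∀ i, b i = 1 ∨ b i = -1) :
    ∑ l ∈ Ico m (2 * k + 1), |sumR k b l - certC k h b l|
      ≤ 2 * PV k h (onesR k b m) (((2 * k + 1 - m : ℕ) : ℤ) - onesR k b m) := by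
  obtain ⟨d, hd⟩ : ∃ d, m + d = 2 * k + 1 := ⟨2 * k + 1 - m, by omega⟩
  induction d generalizing m with
  | zero =>
    have : m = 2 * k + 1 := by omega
    subst this
    rw [right_onesR_top]
    have h0 : tri (-1 - (k : ℤ)) = 0 := tri_of_nonpos (by omega)
    simp [PV, NN, h0]
  | succ d ih =>
    have hm' : m ≤ 2 * k := by omega
    have IH := ih (m + 1) (by omega) (by omega) (by omega)
    rw [Finset.sum_eq_sum_Ico_succ_bot (by omega : m < 2 * k + 1)]
    have hbd := right_onesR_bounds k (m + 1) (by omega) b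
    have hs := right_sumR_eq k b hb hm'
    have hone := right_onesR_succ k b hm'
    set t : ℤ := onesR k b (m + 1) with ht
    set z : ℤ := ((2 * k + 1 - (m + 1) : ℕ) : ℤ) - t with hz
    have hz0 : 0 ≤ z := by omega
    have htz : t + z = 2 * (k : ℤ) - (m : ℤ) := by omega
    have hsum : sumR k b m = t - z := by omega
    have hcert : certC k h b m
        = b m * max (b m * clampZ (wd k m) (t - z)) (clampZ (wd k m) ((m : ℤ) - 2 * h)) := by
      unfold certC
      rw [if_pos hhm, hsum]
    have hw : wd k m = min (m : ℤ) (2 * (k : ℤ) - m) := rfl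
    rcases hb m with h1 | h1
    · have hos : onesR k b m = t + 1 := by rw [hone, if_pos h1]; ring
      have hzz : ((2 * k + 1 - m : ℕ) : ℤ) - onesR k b m = z := by omega
      have hstep := v_step_one (k := (k : ℤ)) (h := (h : ℤ)) (l := (m : ℤ)) (t := t) (z := z)
        (by omega) (by omega) (by omega) hbd.1 hz0 htz (wd k m) hw
      rw [hzz, hos, hcert, h1, hsum]
      simp only [one_mul]
      omega
    · have hos : onesR k b m = t := by
        rw [hone, if_neg (by rw [h1]; norm_num)]
        ring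
      have hzz : ((2 * k + 1 - m : ℕ) : ℤ) - onesR k b m = z + 1 := by omega
      have hstep := v_step_zero (k := (k : ℤ)) (h := (h : ℤ)) (l := (m : ℤ)) (t := t) (z := z)
        (by omega) (by omega) (by omega) hbd.1 hz0 htz (wd k m) hw
      rw [hzz, hos, hcert, h1, hsum]
      generalize clampZ (wd k m) (t - z) = A at hstep ⊢
      generalize clampZ (wd k m) ((m : ℤ) - 2 * h) = B at hstep ⊢
      have hE : -1 * max (-1 * A) B = min A (-B) := by
        rcases le_total A (-B) with hAB | hAB
        · rw [min_eq_left hAB, max_eq_left (by omega)]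
          ring
        · rw [min_eq_right hAB, max_eq_right (by omega)]
          ring
      rw [hE]
      omega

/-- Total violation (downward induction, with `v_step_*` and `pv_end`). -/
theorem viol_sum (k h : ℕ) (hh : h ≤ 2 * k + 1) (b : ℕ → ℤ) (hb : ∀ i, b i = 1 ∨ b i = -1) :
    ∑ l ∈ Ico h (2 * k + 1), |sumR k b l - certC k h b l|
      ≤ 2 * ∑ l ∈ Ico h (2 * k + 1), max ((k : ℤ) - l) 0 := by
  have h1 := viol_sum_aux k h h le_rfl hh b hb
  have hbd := right_onesR_bounds k h hh b
  have h2 := pv_end (k := (k : ℤ)) (h := (h : ℤ)) (t := onesR k b h)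
    (z := ((2 * k + 1 - h : ℕ) : ℤ) - onesR k b h) (by omega) (by omega) hbd.1 (by omega) (by omega)
  rw [sum_off]
  omega

/-- The right part. -/
theorem right_part (k g h : ℕ) (hgh : g ≤ h) (hh : h ≤ 2 * k + 1) (a b : ℕ → ℤ)
    (ha : ∀ i, a i = 1 ∨ a i = -1) (hb : ∀ i, b i = 1 ∨ b i = -1) :
    ∑ l ∈ Ico h (2 * k + 1), (2 * wd k l - |certC k g a l - certC k h b l|)
      ≤ ∑ l ∈ Ico h (2 * k + 1), (((2 * k : ℤ) - l) + a l * sumR k b l)
        + 2 * band (onesR k a h) (((2 * k + 1 - h : ℕ) : ℤ) - onesR k a h) ((k : ℤ) - g) k := by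
  have hpt : ∀ l ∈ Ico h (2 * k + 1),
      2 * wd k l - |certC k g a l - certC k h b l|
        ≤ (((2 * k : ℤ) - l) + a l * sumR k b l)
          + (wd k l - a l * certC k g a l)
          + |sumR k b l - certC k h b l|
          - 2 * max ((k : ℤ) - l) 0 := by
    intro l _
    have hwo : (2 * k : ℤ) - l = wd k l + 2 * max ((k : ℤ) - l) 0 := by
      unfold wd
      omega
    have := right_pointwise (w := wd k l) (off := max ((k : ℤ) - l) 0) (R' := sumR k b l)
      (C := certC k g a l) (C' := certC k h b l) (s := a l) (ha l)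
    rw [hwo]
    linarith
  have hsum := Finset.sum_le_sum hpt
  have hsplit : ∑ l ∈ Ico h (2 * k + 1), ((((2 * k : ℤ) - l) + a l * sumR k b l)
        + (wd k l - a l * certC k g a l) + |sumR k b l - certC k h b l|
        - 2 * max ((k : ℤ) - l) 0)
      = ∑ l ∈ Ico h (2 * k + 1), (((2 * k : ℤ) - l) + a l * sumR k b l)
        + ∑ l ∈ Ico h (2 * k + 1), (wd k l - a l * certC k g a l)
        + ∑ l ∈ Ico h (2 * k + 1), |sumR k b l - certC k h b l|
        - 2 * ∑ l ∈ Ico h (2 * k + 1), max ((k : ℤ) - l) 0 := by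
    rw [Finset.sum_sub_distrib, Finset.sum_add_distrib, Finset.sum_add_distrib, Finset.mul_sum]
  rw [hsplit] at hsum
  have hc := cost_sum k g h hgh hh a ha
  have hv := viol_sum k h hh b hb
  linarith

end Vale.Agent.Lib.P040K
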