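import Vale.Agent.Lib.P040.TwoPageDefs

/-!
Zarankiewicz's construction as a two-page drawing: along the spine the first half of the reds, the
first half of the blues, the other reds, the other blues. An edge goes to page `false` if it joins
the first half of the reds to the first half of the blues or the other reds to the other blues, and
to page `true` otherwise. Its number of crossings is at most `zar m * zar n`.
-/

namespace Vale.Agent.Lib.P040K

open Finset Vale.Agent.Lib.P040

/-- The drawing of Zarankiewicz on a spine. -/
def zDraw (m n : ℕ) : TwoPageDrawing m n where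
  posR r := if r.val < m / 2 then r.val else r.val + n / 2
  posB x := if x.val < n / 2 then m / 2 + x.val else m + x.val
  inj := by
    rintro (r | x) (s | y) h
    · simp only [Sum.elim_inl] at h
      have hr := r.isLt
      have hs := s.isLt
      have : r.val = s.val := by split_ifs at h <;> omega
      exact congrArg Sum.inl (Fin.ext this)
    · simp only [Sum.elim_inl, Sum.elim_inr] at h
      have hr := r.isLt
      have hs := y.isLt
      exfalso
      split_ifs at h <;> omega
    · simp only [Sum.elim_inl, Sum.elim_inr] at h
      have hr := x.isLt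
      have hs := s.isLt
      exfalso
      split_ifs at h <;> omega
    · simp only [Sum.elim_inr] at h
      have hr := x.isLt
      have hs := y.isLt
      have : x.val = y.val := by split_ifs at h <;> omega
      exact congrArg Sum.inr (Fin.ext this)
  page r x := xor (decide (r.val < m / 2)) (decide (x.val < n / 2))

/-- Pairs `r < s` on the same side of `c`. -/
def sidePairs (m c : ℕ) : Finset (Fin m × Fin m) :=
  (Finset.univ : Finset (Fin m × Fin m)).filter fun p =>
    p.1.val < p.2.val ∧ (p.1.val < c ↔ p.2.val < c)

theorem inner_count (m c s : ℕ) (hs : s < m) :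
    ((Finset.univ : Finset (Fin m)).filter fun r => r.val < s ∧ (r.val < c ↔ s < c)).card
      = if s < c then s else s - c := by
  have h : ((Finset.univ : Finset (Fin m)).filter fun r => r.val < s ∧ (r.val < c ↔ s < c)).card
      = ((range m).filter fun r => r < s ∧ (r < c ↔ s < c)).card := by
    refine Finset.card_bij (fun r _ => r.val) ?_ ?_ ?_
    · intro r hr
      simp only [mem_filter, mem_univ, true_and, mem_range] at hr ⊢
      exact ⟨r.isLt, hr⟩
    · intro r _ t _ h
      exact Fin.ext h
    · intro b hb
      simp only [mem_filter, mem_range] at hb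
      exact ⟨⟨b, hb.1⟩, by simp only [mem_filter, mem_univ, true_and]; exact hb.2, rfl⟩
  rw [h]
  by_cases hsc : s < c
  · rw [if_pos hsc]
    have h2 : ((range m).filter fun r => r < s ∧ (r < c ↔ s < c)) = range s := by
      ext r
      simp only [mem_filter, mem_range]
      constructor
      · rintro ⟨_, h3, _⟩
        exact h3
      · intro h3
        exact ⟨by omega, h3, by constructor <;> intro <;> omega⟩
    rw [h2, card_range]
  · rw [if_neg hsc]
    have h2 : ((range m).filter fun r => r < s ∧ (r < c ↔ s < c)) = Ico c s := by
      ext r
      simp only [mem_filter, mem_range, mem_Ico]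
      constructor
      · rintro ⟨_, h3, h4⟩
        have : ¬ r < c := fun h5 => hsc (h4.1 h5)
        omega
      · intro h3
        exact ⟨by omega, h3.2, by constructor <;> intro <;> omega⟩
    rw [h2, Nat.card_Ico]

theorem choose_two_succ (t : ℕ) : (t + 1).choose 2 = t + t.choose 2 := by
  show (t + 1).choose (1 + 1) = _
  rw [Nat.choose_succ_succ' t 1, Nat.choose_one_right]

/-- The count of the pairs as a sum. -/
def sideSum (m c : ℕ) : ℕ := ∑ s ∈ range m, if s < c then s else s - c

theorem sideSum_eq (m c : ℕ) : sideSum m c = (min m c).choose 2 + (m - c).choose 2 := by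
  induction m with
  | zero => simp [sideSum]
  | succ m ih =>
    unfold sideSum at ih ⊢
    rw [Finset.sum_range_succ, ih]
    by_cases h : m < c
    · rw [if_pos h, min_eq_left (by omega), min_eq_left (by omega)]
      have e1 : m - c = 0 := by omega
      have e2 : m + 1 - c = 0 := by omega
      rw [e1, e2]
      have := choose_two_succ m
      omega
    · rw [if_neg h, min_eq_right (by omega), min_eq_right (by omega)]
      have e2 : m + 1 - c = (m - c) + 1 := by omega
      rw [e2]
      have := choose_two_succ (m - c)
      omega

theorem card_sidePairs (m c : ℕ) : (sidePairs m c).card = sideSum m c := by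
  unfold sidePairs sideSum
  have h : ((Finset.univ : Finset (Fin m × Fin m)).filter fun p =>
      p.1.val < p.2.val ∧ (p.1.val < c ↔ p.2.val < c)).card
      = ∑ s : Fin m, ((Finset.univ : Finset (Fin m)).filter fun r =>
          r.val < s.val ∧ (r.val < c ↔ s.val < c)).card := by
    rw [Finset.card_filter, ← Finset.univ_product_univ, Finset.sum_product_right]
    refine Finset.sum_congr rfl fun s _ => ?_
    rw [Finset.card_filter]
  rw [h, ← Fin.sum_univ_eq_sum_range (fun s => if s < c then s else s - c) m]
  exact Finset.sum_congr rfl fun s _ => inner_count m c s.val s.isLt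

theorem choose_half (m : ℕ) : (m / 2).choose 2 + (m - m / 2).choose 2 = zar m := by
  unfold zar
  rcases Nat.even_or_odd' m with ⟨t, rfl | rfl⟩
  · have e1 : 2 * t / 2 = t := by omega
    have e2 : 2 * t - t = t := by omega
    have e3 : (2 * t - 1) / 2 = t - 1 := by omega
    rw [e1, e2, e3]
    have h2 : t.choose 2 * 2 = t * (t - 1) := by
      rw [Nat.choose_two_right]
      exact Nat.div_mul_cancel (Nat.even_mul_pred_self t).two_dvd
    omega
  · have e1 : (2 * t + 1) / 2 = t := by omega
    have e2 : 2 * t + 1 - t = t + 1 := by omega
    have e3 : (2 * t + 1 - 1) / 2 = t := by omega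
    rw [e1, e2, e3]
    have h1 := choose_two_succ t
    have h2 : t.choose 2 * 2 = t * (t - 1) := by
      rw [Nat.choose_two_right]
      exact Nat.div_mul_cancel (Nat.even_mul_pred_self t).two_dvd
    rcases t with _ | t
    · simp
    · simp only [Nat.add_sub_cancel] at h2
      have h3 : (t + 1) * (t + 1) = (t + 1) * t + (t + 1) := by ring
      rw [h1, h3]
      omega

theorem card_sidePairs_half (m : ℕ) : (sidePairs m (m / 2)).card = zar m := by
  rw [card_sidePairs, sideSum_eq, min_eq_right (by omega), choose_half]

/-- The drawing has at most `zar m * zar n` crossings. -/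
theorem zDraw_crossings_le (m n : ℕ) : (zDraw m n).crossings ≤ zar m * zar n := by
  rw [← card_sidePairs_half m, ← card_sidePairs_half n, ← Finset.card_product]
  unfold TwoPageDrawing.crossings
  refine Finset.card_le_card_of_injOn (fun q => ((q.1, q.2.1), (q.2.2.1, q.2.2.2))) ?_ ?_
  · rintro ⟨r, s, x, y⟩ hq
    simp only [Finset.coe_filter, mem_univ, true_and, Set.mem_ofPred_eq] at hq
    obtain ⟨h1, h2, h3, h4⟩ := hq
    have h1' : r.val < s.val := h1
    have h2' : x.val ≠ y.val := fun h => h2 (Fin.ext h)
    have hr := r.isLt
    have hs := s.isLt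
    have hx := x.isLt
    have hy := y.isLt
    simp only [Finset.coe_product, Set.mem_prod, Finset.mem_coe, sidePairs, mem_filter, mem_univ,
      true_and]
    simp only [zDraw] at h3 h4
    by_cases hra : r.val < m / 2 <;> by_cases hsa : s.val < m / 2 <;>
      by_cases hxa : x.val < n / 2 <;> by_cases hya : y.val < n / 2 <;>
      simp only [hra, hsa, hxa, hya, decide_true, decide_false, if_true, if_false, Bool.xor_true,
        Bool.xor_false, Bool.not_true, Bool.not_false, reduceCtorEq, Bool.false_eq_true,
        eq_self_iff_true] at h3 h4 <;>
      simp only [Between, Alternate] at h4 <;>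
      refine ⟨⟨h1', ?_⟩, ?_, ?_⟩ <;> first | omega | (constructor <;> intro <;> omega)
  · rintro ⟨r, s, x, y⟩ _ ⟨r', s', x', y'⟩ _ h
    simp only [Prod.mk.injEq] at h
    obtain ⟨⟨rfl, rfl⟩, rfl, rfl⟩ := h
    rfl

end Vale.Agent.Lib.P040K
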