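import Vale.Agent.Lib.P040K.KeyMain

/-!
The matching drawing: Zarankiewicz's drawing, with the two classes on two axes, put on a spine. Let `p = m / 2`,
`q = n / 2`. Spine order: reds `i < p`, blues `j < q`, reds `i >= p`, blues `j >= q`. An edge goes to the first page if
it joins two near classes or two far classes, else to the second page.
-/

namespace Vale.Agent.Lib.P040K

open Finset Vale.Agent.Lib.P040

/-- Spine position of a red vertex. -/
def zPosR (p q i : ℕ) : ℕ := if i < p then i else q + i

/-- Spine position of a blue vertex. -/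
def zPosB (p q m j : ℕ) : ℕ := if j < q then p + j else m + j

/-- Zarankiewicz's drawing on two pages. -/
def zDraw (m n : ℕ) : TwoPageDrawing m n where
  posR := fun i => zPosR (m / 2) (n / 2) i.val
  posB := fun j => zPosB (m / 2) (n / 2) m j.val
  inj := by
    intro a b hab
    rcases a with a | a <;> rcases b with b | b <;>
      simp only [Sum.elim_inl, Sum.elim_inr, zPosR, zPosB] at hab
    · have h1 := a.isLt
      have h2 := b.isLt
      congr 1
      apply Fin.ext
      split_ifs at hab <;> omega
    · have h1 := a.isLt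
      have h2 := b.isLt
      exfalso
      split_ifs at hab <;> omega
    · have h1 := a.isLt
      have h2 := b.isLt
      exfalso
      split_ifs at hab <;> omega
    · have h1 := a.isLt
      have h2 := b.isLt
      congr 1
      apply Fin.ext
      split_ifs at hab <;> omega
  page := fun i j => decide ((i.val < m / 2) ↔ (j.val < n / 2))

/-- A crossing of the drawing lies in one class of reds and one class of blues. -/
theorem z_cross {m p q r s x y : ℕ} (hp : p ≤ m) (hs : s < m) (hrs : r < s) (hxy : x ≠ y)
    (hpage : ((r < p) ↔ (x < q)) ↔ ((s < p) ↔ (y < q)))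
    (halt : Alternate (zPosR p q r) (zPosB p q m x) (zPosR p q s) (zPosB p q m y)) :
    ((r < p) ↔ (s < p)) ∧ x < y ∧ ((x < q) ↔ (y < q)) := by
  unfold Alternate Between zPosR zPosB at halt
  by_cases h1 : r < p <;> by_cases h2 : s < p <;> by_cases h3 : x < q <;> by_cases h4 : y < q <;>
    simp only [h1, h2, h3, h4, if_true, if_false, iff_true, iff_false, not_true_eq_false] at hpage halt <;>
    omega

/-- Pairs of one class. -/
def zPairs (m p : ℕ) : Finset (Fin m × Fin m) :=
  univ.filter fun t => t.1.val < t.2.val ∧ ((t.1.val < p) ↔ (t.2.val < p))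

theorem zPairs_sum (m p : ℕ) :
    (zPairs m p).card = ∑ b ∈ range m, if b < p then b else b - p := by
  unfold zPairs
  rw [Finset.card_filter, Fintype.sum_prod_type, Finset.sum_comm]
  rw [Fin.sum_univ_eq_sum_range
    (fun b => ∑ a : Fin m, if a.val < b ∧ ((a.val < p) ↔ (b < p)) then 1 else 0) m]
  refine Finset.sum_congr rfl fun b hb => ?_
  rw [Fin.sum_univ_eq_sum_range (fun a => if a < b ∧ ((a < p) ↔ (b < p)) then 1 else 0) m]
  rw [← Finset.card_filter]
  have hbm : b < m := Finset.mem_range.mp hb
  by_cases hbp : b < p
  · rw [if_pos hbp]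
    have h1 : (range m).filter (fun a => a < b ∧ ((a < p) ↔ (b < p))) = range b := by
      ext a
      simp only [Finset.mem_filter, Finset.mem_range]
      omega
    rw [h1, Finset.card_range]
  · rw [if_neg hbp]
    have h1 : (range m).filter (fun a => a < b ∧ ((a < p) ↔ (b < p))) = Ico p b := by
      ext a
      simp only [Finset.mem_filter, Finset.mem_range, Finset.mem_Ico]
      omega
    rw [h1, Nat.card_Ico]

theorem z_sum (p t : ℕ) :
    (∑ b ∈ range (p + t), if b < p then b else b - p) * 2 = p * (p - 1) + t * (t - 1) := by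
  induction t with
  | zero =>
    rw [add_zero, Finset.sum_congr rfl (fun b hb => if_pos (Finset.mem_range.mp hb)),
      Finset.sum_range_id_mul_two]
    simp
  | succ t ih =>
    rw [← add_assoc, Finset.sum_range_succ, add_mul, ih,
      if_neg (by omega : ¬ (p + t < p))]
    have h1 : p + t - p = t := by omega
    rw [h1]
    cases t with
    | zero => simp
    | succ s =>
      simp only [Nat.add_sub_cancel]
      ring

theorem zPairs_card (m : ℕ) : (zPairs m (m / 2)).card = zar m := by
  rw [zPairs_sum]
  unfold zar
  rcases Nat.even_or_odd' m with ⟨p, rfl | rfl⟩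
  · have h1 : 2 * p / 2 = p := by omega
    have h2 : (2 * p - 1) / 2 = p - 1 := by omega
    rw [h1, h2]
    have h3 := z_sum p p
    have h4 : 2 * p = p + p := by ring
    rw [h4]
    omega
  · have h1 : (2 * p + 1) / 2 = p := by omega
    have h2 : (2 * p + 1 - 1) / 2 = p := by omega
    rw [h1, h2]
    have h3 := z_sum p (p + 1)
    have h4 : 2 * p + 1 = p + (p + 1) := by ring
    rw [h4]
    simp only [Nat.add_sub_cancel] at h3
    cases p with
    | zero => simp
    | succ s =>
      simp only [Nat.add_sub_cancel] at h3
      nlinarith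

theorem z_crossings (m n : ℕ) : (zDraw m n).crossings ≤ zar m * zar n := by
  rw [← zPairs_card m, ← zPairs_card n, ← Finset.card_product]
  unfold TwoPageDrawing.crossings
  apply Finset.card_le_card_of_injOn (fun t => ((t.1, t.2.1), (t.2.2.1, t.2.2.2)))
  · intro t ht
    simp only [Finset.coe_filter, Finset.mem_univ, true_and, Set.mem_ofPred_eq] at ht
    obtain ⟨h1, h2, h3, h4⟩ := ht
    have h5 := z_cross (m := m) (p := m / 2) (q := n / 2) (r := t.1.val) (s := t.2.1.val) (x := t.2.2.1.val)
      (y := t.2.2.2.val) (Nat.div_le_self _ _) t.2.1.isLt h1 (fun h => h2 (Fin.ext h))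
      (by simpa [zDraw] using h3) h4
    simp only [Finset.coe_product, Set.mem_prod, Finset.mem_coe, zPairs, Finset.mem_filter, Finset.mem_univ, true_and]
    exact ⟨⟨h1, h5.1⟩, h5.2.1, h5.2.2⟩
  · intro a _ b _ hab
    simp only [Prod.mk.injEq] at hab
    obtain ⟨⟨h1, h2⟩, h3, h4⟩ := hab
    exact Prod.ext h1 (Prod.ext h2 (Prod.ext h3 h4))

/-- The two-page crossing number of `K_{m,n}` is exactly `d_m d_n`. -/
theorem two_page_exact (m n : ℕ) : ∃ D : TwoPageDrawing m n, D.crossings = zar m * zar n :=
  ⟨zDraw m n, le_antisymm (z_crossings m n) (two_page_all m n (zDraw m n))⟩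

end Vale.Agent.Lib.P040K
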